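import Mathlib

namespace Vale.Agent.P338

open Finset

/-- Numbers agreeing below bit `j` and differing at bit `j` have products (with an odd number)
differing at bit `j`. -/
lemma testBit_mul_ne {x x' y j : ℕ} (hy : y % 2 = 1) (h1 : x % 2 ^ j = x' % 2 ^ j)
    (h2 : x.testBit j ≠ x'.testBit j) : (x * y).testBit j ≠ (x' * y).testBit j := by
  have hp : 0 < 2 ^ j := by positivity
  have hx : ∀ z : ℕ, z * y = (z % 2 ^ j) * y + 2 ^ j * (z / 2 ^ j * y) := by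
    intro z
    conv_lhs => rw [← Nat.mod_add_div z (2 ^ j)]
    ring
  have hd : ∀ z : ℕ, (z * y) / 2 ^ j = ((z % 2 ^ j) * y) / 2 ^ j + z / 2 ^ j * y := by
    intro z
    conv_lhs => rw [hx z]
    rw [Nat.add_mul_div_left _ _ hp]
  have hpar : (x / 2 ^ j) % 2 ≠ (x' / 2 ^ j) % 2 := by
    intro he
    apply h2
    rw [Nat.testBit_eq_decide_div_mod_eq, Nat.testBit_eq_decide_div_mod_eq, he]
  have hm : ∀ u : ℕ, (u * y) % 2 = u % 2 := by
    intro u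
    rw [Nat.mul_mod, hy, mul_one, Nat.mod_mod]
  intro heq
  rw [Nat.testBit_eq_decide_div_mod_eq, Nat.testBit_eq_decide_div_mod_eq, hd x, hd x', h1] at heq
  have h3 := decide_eq_decide.mp heq
  have h4 := hm (x / 2 ^ j)
  have h5 := hm (x' / 2 ^ j)
  omega

/-- The set of differences that an odd multiplier `y` fails to separate at scale `L`. -/
noncomputable def BadSet (y L d : ℕ) : Finset ℤ := by
  classical
  exact (Finset.Ioo (-(2 : ℤ) ^ L) ((2 : ℤ) ^ L)).filter fun v =>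
    ∃ e : ℤ, |e| < (2 : ℤ) ^ (L + 1) ∧ (2 : ℤ) ^ (2 * L - d) ∣ v * (y : ℤ) - e

lemma mem_BadSet {y L d : ℕ} {v : ℤ} :
    v ∈ BadSet y L d ↔ (-(2 : ℤ) ^ L < v ∧ v < (2 : ℤ) ^ L) ∧
      ∃ e : ℤ, |e| < (2 : ℤ) ^ (L + 1) ∧ (2 : ℤ) ^ (2 * L - d) ∣ v * (y : ℤ) - e := by
  simp [BadSet, Finset.mem_Ioo]

/-- Two numbers with the same bits from position `b` on (below `M`): residues mod `2 ^ M`
are within `2 ^ b` of each other. -/
lemma abs_mod_sub_lt {P P₀ b M : ℕ}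
    (hbits : ∀ j, b ≤ j → j < M → P.testBit j = P₀.testBit j) :
    |((P % 2 ^ M : ℕ) : ℤ) - ((P₀ % 2 ^ M : ℕ) : ℤ)| < (2 : ℤ) ^ b := by
  have hq : (P % 2 ^ M) / 2 ^ b = (P₀ % 2 ^ M) / 2 ^ b := by
    apply Nat.eq_of_testBit_eq
    intro i
    rw [Nat.testBit_div_two_pow, Nat.testBit_div_two_pow, Nat.testBit_mod_two_pow,
      Nat.testBit_mod_two_pow]
    by_cases hi : i + b < M
    · simp only [hi, decide_true, Bool.true_and]
      exact hbits _ (by omega) hi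
    · simp [hi]
  have hp : 0 < 2 ^ b := by positivity
  have h1 := Nat.div_add_mod (P % 2 ^ M) (2 ^ b)
  have h2 := Nat.div_add_mod (P₀ % 2 ^ M) (2 ^ b)
  have h3 := Nat.mod_lt (P % 2 ^ M) hp
  have h4 := Nat.mod_lt (P₀ % 2 ^ M) hp
  rw [hq] at h1
  have h5 : ((2 ^ b : ℕ) : ℤ) = (2 : ℤ) ^ b := by push_cast; rfl
  rw [← h5, abs_lt]
  constructor <;> omega

lemma cast_decomp_pow (x a : ℕ) : (x : ℤ) = ((x % 2 ^ a : ℕ) : ℤ) + 2 ^ a * ((x / 2 ^ a : ℕ) : ℤ) := by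
  have h2 : ((x % 2 ^ a + 2 ^ a * (x / 2 ^ a) : ℕ) : ℤ) = x := congrArg _ (Nat.mod_add_div x (2 ^ a))
  rw [Nat.cast_add, Nat.cast_mul, Nat.cast_pow, Nat.cast_ofNat] at h2
  exact h2.symm

/-- A natural-number window statement implies membership in the bad set. -/
lemma bad_of_window {x x₀ y a L d : ℕ}
    (hmod : x % 2 ^ a = x₀ % 2 ^ a) (hdiv : x / 2 ^ (a + L) = x₀ / 2 ^ (a + L))
    (hbits : ∀ j, a + L + 1 ≤ j → j < a + (2 * L - d) → (x * y).testBit j = (x₀ * y).testBit j) :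
    ∃ v ∈ BadSet y L d, (x : ℤ) - x₀ = 2 ^ a * v := by
  have hpa : 0 < 2 ^ a := by positivity
  have hpL : 0 < 2 ^ L := by positivity
  -- the quotient difference
  set u := x / 2 ^ a with hu
  set u₀ := x₀ / 2 ^ a with hu₀
  have hx : (x : ℤ) = (x % 2 ^ a : ℕ) + 2 ^ a * u := cast_decomp_pow x a
  have hx₀ : (x₀ : ℤ) = (x₀ % 2 ^ a : ℕ) + 2 ^ a * u₀ := cast_decomp_pow x₀ a
  have hdiff : (x : ℤ) - x₀ = 2 ^ a * ((u : ℤ) - u₀) := by
    rw [hx, hx₀, hmod]; ring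
  have huq : u / 2 ^ L = u₀ / 2 ^ L := by
    rw [hu, hu₀, Nat.div_div_eq_div_mul, Nat.div_div_eq_div_mul, ← pow_add, hdiv]
  have hvbound : -(2 : ℤ) ^ L < (u : ℤ) - u₀ ∧ (u : ℤ) - u₀ < (2 : ℤ) ^ L := by
    have h1 := Nat.div_add_mod u (2 ^ L)
    have h2 := Nat.div_add_mod u₀ (2 ^ L)
    have h3 := Nat.mod_lt u hpL
    have h4 := Nat.mod_lt u₀ hpL
    rw [huq] at h1
    have h5 : ((2 ^ L : ℕ) : ℤ) = (2 : ℤ) ^ L := by push_cast; rfl
    rw [← h5]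
    constructor <;> omega
  refine ⟨(u : ℤ) - u₀, ?_, hdiff⟩
  rw [mem_BadSet]
  refine ⟨hvbound, ?_⟩
  -- the residues of the products
  set M := a + (2 * L - d) with hM
  have hE := abs_mod_sub_lt (P := x * y) (P₀ := x₀ * y) (b := a + L + 1) (M := M) hbits
  set U : ℤ := (((x * y) % 2 ^ M : ℕ) : ℤ) with hU
  set U₀ : ℤ := (((x₀ * y) % 2 ^ M : ℕ) : ℤ) with hU₀
  have hP : ((x * y : ℕ) : ℤ) = U + 2 ^ M * (((x * y) / 2 ^ M : ℕ) : ℤ) := cast_decomp_pow _ M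
  have hP₀ : ((x₀ * y : ℕ) : ℤ) = U₀ + 2 ^ M * (((x₀ * y) / 2 ^ M : ℕ) : ℤ) := cast_decomp_pow _ M
  have hMa : (2 : ℤ) ^ M = 2 ^ a * 2 ^ (2 * L - d) := by rw [hM, pow_add]
  set Q : ℤ := (((x * y) / 2 ^ M : ℕ) : ℤ) - (((x₀ * y) / 2 ^ M : ℕ) : ℤ) with hQ
  have hrel : (2 : ℤ) ^ a * (((u : ℤ) - u₀) * y - 2 ^ (2 * L - d) * Q) = U - U₀ := by
    have h1 : ((x * y : ℕ) : ℤ) - ((x₀ * y : ℕ) : ℤ) = ((x : ℤ) - x₀) * y := by push_cast; ring
    rw [hdiff, hP, hP₀, hMa] at h1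
    rw [hQ]
    linear_combination -h1
  refine ⟨((u : ℤ) - u₀) * y - 2 ^ (2 * L - d) * Q, ?_, ⟨Q, by ring⟩⟩
  have hpa' : (0 : ℤ) < 2 ^ a := by positivity
  rw [← hrel, abs_mul, abs_of_pos hpa'] at hE
  have h2 : (2 : ℤ) ^ (a + L + 1) = 2 ^ a * 2 ^ (L + 1) := by ring
  rw [h2] at hE
  exact lt_of_mul_lt_mul_left hE hpa'.le


/-- Counting the odd multipliers for which a given nonzero difference is bad. -/
lemma count_bad_ne_zero {v : ℤ} {L d n : ℕ} (hv : v ≠ 0) (hvlt : |v| < (2 : ℤ) ^ L)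
    (hd : d + 1 ≤ L) (hM : 2 * L - d ≤ n) :
    ((range (2 ^ (n - 1))).filter (fun y₁ => v ∈ BadSet (2 * y₁ + 1) L d)).card ≤
      2 ^ (L + 2 + (n - (2 * L - d))) := by
  classical
  set M' := 2 * L - d with hM'
  have hM'L : L + 1 ≤ M' := by omega
  -- factor out the power of two
  obtain ⟨e, w, hw, hve⟩ := Nat.exists_eq_pow_mul_and_not_dvd (n := v.natAbs)
    (Int.natAbs_ne_zero.mpr hv) 2 (by norm_num)
  have he2 : ((2 : ℤ) ^ e) ∣ v := by
    rw [← Int.natAbs_dvd_natAbs]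
    have h2e : ((2 : ℤ) ^ e).natAbs = 2 ^ e := by simp [Int.natAbs_pow]
    rw [h2e]
    exact ⟨w, hve⟩
  obtain ⟨v', hv'⟩ := he2
  have hv'odd : ¬ (2 : ℤ) ∣ v' := by
    intro h2
    apply hw
    have hna : v.natAbs = 2 ^ e * v'.natAbs := by
      rw [hv', Int.natAbs_mul, Int.natAbs_pow]; rfl
    have : v'.natAbs = w := by
      have hp : 0 < 2 ^ e := by positivity
      rw [hve] at hna
      exact (Nat.eq_of_mul_eq_mul_left hp hna).symm
    rw [← this]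
    simpa using (Int.natAbs_dvd_natAbs.mpr h2)
  have heL : e < L := by
    have h1 : ((2 ^ e : ℕ) : ℤ) ≤ |v| := by
      rw [Int.abs_eq_natAbs]
      have hwpos : 0 < w := by
        rcases Nat.eq_zero_or_pos w with h | h
        · exact absurd (by simp [h]) hw
        · exact h
      have : 2 ^ e ≤ v.natAbs := by
        rw [hve]; exact Nat.le_mul_of_pos_right _ hwpos
      exact_mod_cast this
    have h2 : ((2 ^ e : ℕ) : ℤ) < ((2 ^ L : ℕ) : ℤ) := by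
      push_cast at h1 ⊢
      exact lt_of_le_of_lt h1 hvlt
    have h3 : 2 ^ e < 2 ^ L := by exact_mod_cast h2
    exact (Nat.pow_lt_pow_iff_right (by norm_num)).mp h3
  -- the property satisfied by the bad multipliers
  let Pr : ℕ → ℤ → Prop := fun y₁ f =>
    |f| < (2 : ℤ) ^ (L + 1 - e) ∧ (2 : ℤ) ^ (M' - e) ∣ v' * ((2 * y₁ + 1 : ℕ) : ℤ) - f
  have hPr : ∀ y₁, v ∈ BadSet (2 * y₁ + 1) L d → ∃ f, Pr y₁ f := by
    intro y₁ hy₁
    obtain ⟨-, e₁, he₁, hdvd⟩ := mem_BadSet.mp hy₁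
    have hpe : (2 : ℤ) ^ e ∣ (2 : ℤ) ^ M' := pow_dvd_pow 2 (by omega)
    have h1 : (2 : ℤ) ^ e ∣ e₁ := by
      have h2 : (2 : ℤ) ^ e ∣ v * ((2 * y₁ + 1 : ℕ) : ℤ) := Dvd.dvd.mul_right ⟨v', hv'⟩ _
      have h3 := dvd_sub h2 (hpe.trans hdvd)
      simpa using h3
    obtain ⟨f, hf⟩ := h1
    refine ⟨f, ?_, ?_⟩
    · rw [hf, abs_mul, abs_of_pos (by positivity : (0 : ℤ) < 2 ^ e)] at he₁
      have h4 : (2 : ℤ) ^ (L + 1) = 2 ^ e * 2 ^ (L + 1 - e) := by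
        rw [← pow_add]; congr 1; omega
      rw [h4] at he₁
      exact lt_of_mul_lt_mul_left he₁ (by positivity)
    · have h5 : (2 : ℤ) ^ M' = 2 ^ e * 2 ^ (M' - e) := by
        rw [← pow_add]; congr 1; omega
      rw [h5, hv', hf] at hdvd
      have h6 : (2 : ℤ) ^ e * v' * ((2 * y₁ + 1 : ℕ) : ℤ) - 2 ^ e * f =
          2 ^ e * (v' * ((2 * y₁ + 1 : ℕ) : ℤ) - f) := by ring
      rw [h6] at hdvd
      exact (mul_dvd_mul_iff_left (by positivity)).mp hdvd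
  let fn : ℕ → ℤ := fun y₁ => if h : ∃ f, Pr y₁ f then h.choose else 0
  have hfn : ∀ y₁, v ∈ BadSet (2 * y₁ + 1) L d → Pr y₁ (fn y₁) := by
    intro y₁ hy₁
    have h := hPr y₁ hy₁
    simp only [fn, h, dif_pos]
    exact h.choose_spec
  set m := M' - e - 1 with hm
  have hMe : M' - e = m + 1 := by omega
  let Ψ : ℕ → ℤ × ℕ := fun y₁ => (fn y₁, y₁ / 2 ^ m)
  have hmaps : ∀ y₁ ∈ (range (2 ^ (n - 1))).filter (fun y₁ => v ∈ BadSet (2 * y₁ + 1) L d),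
      Ψ y₁ ∈ (Finset.Ioo (-(2 : ℤ) ^ (L + 1 - e)) ((2 : ℤ) ^ (L + 1 - e))) ×ˢ
        range (2 ^ (n - M' + e)) := by
    intro y₁ hy₁
    obtain ⟨h1, h2⟩ := Finset.mem_filter.mp hy₁
    have h3 := (hfn y₁ h2).1
    rw [abs_lt] at h3
    refine Finset.mem_product.mpr ⟨Finset.mem_Ioo.mpr h3, ?_⟩
    rw [Finset.mem_range] at h1 ⊢
    simp only [Ψ]
    rw [Nat.div_lt_iff_lt_mul (by positivity), ← pow_add]
    have : n - M' + e + m = n - 1 := by omega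
    rw [this]
    exact h1
  have hinj : Set.InjOn Ψ
      ((range (2 ^ (n - 1))).filter (fun y₁ => v ∈ BadSet (2 * y₁ + 1) L d) : Finset ℕ) := by
    intro y₁ hy₁ y₂ hy₂ he
    have ha := (Finset.mem_filter.mp (Finset.mem_coe.mp hy₁)).2
    have hb := (Finset.mem_filter.mp (Finset.mem_coe.mp hy₂)).2
    have h1 := (hfn y₁ ha).2
    have h2 := (hfn y₂ hb).2
    have he1 : fn y₁ = fn y₂ := congrArg Prod.fst he
    have he2 : y₁ / 2 ^ m = y₂ / 2 ^ m := congrArg Prod.snd he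
    rw [he1] at h1
    have h3 := dvd_sub h1 h2
    have h4 : v' * ((2 * y₁ + 1 : ℕ) : ℤ) - fn y₂ - (v' * ((2 * y₂ + 1 : ℕ) : ℤ) - fn y₂) =
        v' * (2 * ((y₁ : ℤ) - y₂)) := by push_cast; ring
    rw [h4, hMe] at h3
    have hcop : IsCoprime ((2 : ℤ) ^ (m + 1)) v' := by
      apply IsCoprime.pow_left
      exact (Int.prime_two.coprime_iff_not_dvd).mpr hv'odd
    have h5 := hcop.dvd_of_dvd_mul_left h3
    rw [pow_succ, mul_comm ((2 : ℤ) ^ m) 2] at h5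
    have h6 : (2 : ℤ) ^ m ∣ (y₁ : ℤ) - y₂ := (mul_dvd_mul_iff_left (by norm_num)).mp h5
    have h7 : y₂ % 2 ^ m = y₁ % 2 ^ m := by
      have : y₂ ≡ y₁ [MOD 2 ^ m] := by
        apply (Nat.modEq_iff_dvd).mpr
        push_cast
        exact h6
      exact this
    have h8 := Nat.div_add_mod y₁ (2 ^ m)
    have h9 := Nat.div_add_mod y₂ (2 ^ m)
    rw [← he2, h7] at h9
    exact h8.symm.trans h9
  calc ((range (2 ^ (n - 1))).filter (fun y₁ => v ∈ BadSet (2 * y₁ + 1) L d)).card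
      ≤ ((Finset.Ioo (-(2 : ℤ) ^ (L + 1 - e)) ((2 : ℤ) ^ (L + 1 - e))) ×ˢ
        range (2 ^ (n - M' + e))).card := Finset.card_le_card_of_injOn Ψ hmaps hinj
    _ ≤ 2 ^ (L + 2 - e) * 2 ^ (n - M' + e) := by
        rw [Finset.card_product, Finset.card_range, Int.card_Ioo]
        apply Nat.mul_le_mul_right
        have h1 : ((2 ^ (L + 2 - e) : ℕ) : ℤ) = 2 * (2 : ℤ) ^ (L + 1 - e) := by
          have : L + 2 - e = (L + 1 - e) + 1 := by omega
          rw [this, pow_succ]; push_cast; ring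
        have h2 : (0 : ℤ) < 2 ^ (L + 1 - e) := by positivity
        omega
    _ = 2 ^ (L + 2 + (n - M')) := by
        rw [← pow_add]; congr 1; omega


lemma BadSet_subset (y L d : ℕ) : BadSet y L d ⊆ Finset.Ioo (-(2 : ℤ) ^ L) ((2 : ℤ) ^ L) := by
  intro v hv
  exact Finset.mem_Ioo.mpr (mem_BadSet.mp hv).1

/-- Average size of the bad set over odd multipliers. -/
lemma sum_card_bad {L d n : ℕ} (hd : d + 1 ≤ L) (hM : 2 * L - d ≤ n) :
    ∑ y₁ ∈ range (2 ^ (n - 1)), (BadSet (2 * y₁ + 1) L d).card ≤ 2 ^ (n - 1) + 2 ^ (n + d + 3) := by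
  classical
  set Box := Finset.Ioo (-(2 : ℤ) ^ L) ((2 : ℤ) ^ L) with hBox
  have h1 : ∀ y₁, (BadSet (2 * y₁ + 1) L d).card =
      ∑ v ∈ Box, if v ∈ BadSet (2 * y₁ + 1) L d then 1 else 0 := by
    intro y₁
    rw [Finset.sum_boole, Finset.filter_mem_eq_inter,
      Finset.inter_eq_right.mpr (BadSet_subset _ L d)]
    simp
  simp only [h1]
  rw [Finset.sum_comm]
  have h2 : ∀ v, (∑ y₁ ∈ range (2 ^ (n - 1)), if v ∈ BadSet (2 * y₁ + 1) L d then 1 else 0) =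
      ((range (2 ^ (n - 1))).filter (fun y₁ => v ∈ BadSet (2 * y₁ + 1) L d)).card := by
    intro v
    rw [Finset.sum_boole]
    simp
  simp only [h2]
  have h0mem : (0 : ℤ) ∈ Box := by
    rw [hBox, Finset.mem_Ioo]
    have : (0 : ℤ) < 2 ^ L := by positivity
    constructor <;> linarith
  rw [← Finset.add_sum_erase Box _ h0mem]
  have hc0 : ((range (2 ^ (n - 1))).filter (fun y₁ => (0 : ℤ) ∈ BadSet (2 * y₁ + 1) L d)).card ≤
      2 ^ (n - 1) := by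
    calc _ ≤ (range (2 ^ (n - 1))).card := Finset.card_filter_le _ _
      _ = _ := Finset.card_range _
  have hrest : ∑ v ∈ Box.erase 0,
      ((range (2 ^ (n - 1))).filter (fun y₁ => v ∈ BadSet (2 * y₁ + 1) L d)).card ≤
      (Box.erase 0).card * 2 ^ (L + 2 + (n - (2 * L - d))) := by
    apply Finset.sum_le_card_nsmul
    intro v hv
    obtain ⟨hv0, hvb⟩ := Finset.mem_erase.mp hv
    have hvb' := Finset.mem_Ioo.mp hvb
    exact count_bad_ne_zero hv0 (abs_lt.mpr hvb') hd hM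
  have hcardbox : (Box.erase 0).card ≤ 2 ^ (L + 1) := by
    calc (Box.erase 0).card ≤ Box.card := Finset.card_le_card (Finset.erase_subset _ _)
      _ ≤ 2 ^ (L + 1) := by
        rw [hBox, Int.card_Ioo]
        have h3 : ((2 ^ (L + 1) : ℕ) : ℤ) = 2 * (2 : ℤ) ^ L := by
          rw [pow_succ]; push_cast; ring
        have h4 : (0 : ℤ) < 2 ^ L := by positivity
        omega
  have hexp : 2 ^ (L + 1) * 2 ^ (L + 2 + (n - (2 * L - d))) = 2 ^ (n + d + 3) := by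
    rw [← pow_add]; congr 1; omega
  calc _ ≤ 2 ^ (n - 1) + (Box.erase 0).card * 2 ^ (L + 2 + (n - (2 * L - d))) :=
        Nat.add_le_add hc0 hrest
    _ ≤ 2 ^ (n - 1) + 2 ^ (L + 1) * 2 ^ (L + 2 + (n - (2 * L - d))) := by
        apply Nat.add_le_add_left
        exact Nat.mul_le_mul_right _ hcardbox
    _ = _ := by rw [hexp]

/-- Markov: few odd multipliers are bad at a given scale. -/
lemma card_bad_multipliers {L d n : ℕ} (hd : d + 1 ≤ L) (hM : 2 * L - d ≤ n) (hn : 4 ≤ n) :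
    ((range (2 ^ (n - 1))).filter (fun y₁ => 2 ^ (d + 8) < (BadSet (2 * y₁ + 1) L d).card)).card ≤
      2 ^ (n - 4) := by
  classical
  set A := (range (2 ^ (n - 1))).filter (fun y₁ => 2 ^ (d + 8) < (BadSet (2 * y₁ + 1) L d).card)
  have h1 : A.card * 2 ^ (d + 8) ≤ ∑ y₁ ∈ A, (BadSet (2 * y₁ + 1) L d).card := by
    rw [← smul_eq_mul]
    apply Finset.card_nsmul_le_sum
    intro y₁ hy₁
    exact (Finset.mem_filter.mp hy₁).2.le
  have h2 : ∑ y₁ ∈ A, (BadSet (2 * y₁ + 1) L d).card ≤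
      ∑ y₁ ∈ range (2 ^ (n - 1)), (BadSet (2 * y₁ + 1) L d).card :=
    Finset.sum_le_sum_of_subset (Finset.filter_subset _ _)
  have h3 := sum_card_bad hd hM
  have h4 : 2 ^ (n - 1) + 2 ^ (n + d + 3) ≤ 2 ^ (n - 4) * 2 ^ (d + 8) := by
    rw [← pow_add]
    have e1 : n - 4 + (d + 8) = (n + d + 3) + 1 := by omega
    have h5 : 2 ^ (n - 1) ≤ 2 ^ (n + d + 3) := Nat.pow_le_pow_right (by norm_num) (by omega)
    have h6 : 2 ^ (n + d + 3 + 1) = 2 * 2 ^ (n + d + 3) := by rw [pow_succ]; ring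
    rw [e1, h6]
    omega
  exact Nat.le_of_mul_le_mul_right (h1.trans (h2.trans (h3.trans h4))) (by positivity)

/-- There is an odd multiplier which is good at most scales of a given set of scales. -/
lemma exists_good_multiplier {d n : ℕ} (S : Finset ℕ)
    (hS : ∀ l ∈ S, d + 1 ≤ 2 ^ l ∧ 2 * 2 ^ l - d ≤ n) (hn : 4 ≤ n) :
    ∃ y₁, y₁ < 2 ^ (n - 1) ∧
      8 * (S.filter (fun l => 2 ^ (d + 8) < (BadSet (2 * y₁ + 1) (2 ^ l) d).card)).card ≤ S.card := by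
  classical
  by_contra hcon
  have hall : ∀ y₁ ∈ range (2 ^ (n - 1)), S.card <
      8 * (S.filter (fun l => 2 ^ (d + 8) < (BadSet (2 * y₁ + 1) (2 ^ l) d).card)).card := by
    intro y₁ hy₁
    by_contra h
    exact hcon ⟨y₁, Finset.mem_range.mp hy₁, not_lt.mp h⟩
  have hne : (range (2 ^ (n - 1))).Nonempty := ⟨0, Finset.mem_range.mpr (by positivity)⟩
  have h1 := Finset.sum_lt_sum_of_nonempty hne hall
  rw [Finset.sum_const, Finset.card_range, smul_eq_mul, ← Finset.mul_sum] at h1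
  have h2 : ∑ y₁ ∈ range (2 ^ (n - 1)),
      (S.filter (fun l => 2 ^ (d + 8) < (BadSet (2 * y₁ + 1) (2 ^ l) d).card)).card =
      ∑ l ∈ S, ((range (2 ^ (n - 1))).filter
        (fun y₁ => 2 ^ (d + 8) < (BadSet (2 * y₁ + 1) (2 ^ l) d).card)).card := by
    simp only [Finset.card_filter]
    rw [Finset.sum_comm]
  rw [h2] at h1
  have h3 : ∑ l ∈ S, ((range (2 ^ (n - 1))).filter
      (fun y₁ => 2 ^ (d + 8) < (BadSet (2 * y₁ + 1) (2 ^ l) d).card)).card ≤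
      S.card * 2 ^ (n - 4) := by
    rw [← smul_eq_mul]
    apply Finset.sum_le_card_nsmul
    intro l hl
    exact card_bad_multipliers (hS l hl).1 (hS l hl).2 hn
  have h4 : 2 ^ (n - 1) = 8 * 2 ^ (n - 4) := by
    have : n - 1 = (n - 4) + 3 := by omega
    rw [this, pow_add]; ring
  have h5 : 8 * ∑ l ∈ S, ((range (2 ^ (n - 1))).filter
      (fun y₁ => 2 ^ (d + 8) < (BadSet (2 * y₁ + 1) (2 ^ l) d).card)).card ≤
      2 ^ (n - 1) * S.card := by
    rw [h4]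
    nlinarith [h3]
  omega

end Vale.Agent.P338
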