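import Vale.Agent.Lib.P338.Core

namespace Vale.Agent.P338

open Finset

variable {k : ℕ} {Q Γ : Type} [Fintype Q] [Fintype Γ]

omit [Fintype Q] [Fintype Γ] in
/-- The level threshold. -/
def levelMin (k q₀ β d : ℕ) : ℕ := 2 * (q₀ + (β + 1) * (4 * k) + β + d + 9)

lemma sigRange_card_le {w B β g q₀ : ℕ} (hg : Fintype.card Γ ≤ 2 ^ g) (hq : Fintype.card Q ≤ 2 ^ q₀)
    (hβ : B + 1 ≤ 2 ^ β) :
    (sigRange k Q Γ w B).card ≤ 2 ^ (q₀ + (β + 1) * (4 * k) + β + g * w * k) := by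
  rw [card_sigRange]
  have h1 : 2 * B + 1 ≤ 2 ^ (β + 1) := by rw [pow_succ]; omega
  have h2 : (2 * B + 1) ^ (4 * k) ≤ (2 ^ (β + 1)) ^ (4 * k) := Nat.pow_le_pow_left h1 _
  have h3 : (Fintype.card Γ ^ w) ^ k ≤ ((2 ^ g) ^ w) ^ k :=
    Nat.pow_le_pow_left (Nat.pow_le_pow_left hg _) _
  calc Fintype.card Q * (2 * B + 1) ^ (4 * k) * (B + 1) * (Fintype.card Γ ^ w) ^ k
      ≤ 2 ^ q₀ * (2 ^ (β + 1)) ^ (4 * k) * 2 ^ β * ((2 ^ g) ^ w) ^ k := by
        gcongr
    _ = _ := by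
        rw [← pow_mul, ← pow_mul, ← pow_mul, pow_add, pow_add, pow_add, mul_assoc g w k]

/-- The overlap count at a good level is at most half of the inputs. -/
lemma count_half {n d a L B w g q₀ β : ℕ} (hgk : 2 * (g * w * k) ≤ L)
    (hL : levelMin k q₀ β d ≤ L) (haL : a + L ≤ n)
    (hg : Fintype.card Γ ≤ 2 ^ g) (hq : Fintype.card Q ≤ 2 ^ q₀) (hβ : B + 1 ≤ 2 ^ β) :
    2 ^ (d + 8) * (2 ^ a * 2 ^ (n - (a + L)) * (sigRange k Q Γ w B).card) ≤ 2 ^ (n - 1) := by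
  have h1 := sigRange_card_le (k := k) (Q := Q) (Γ := Γ) (w := w) hg hq hβ
  calc 2 ^ (d + 8) * (2 ^ a * 2 ^ (n - (a + L)) * (sigRange k Q Γ w B).card)
      ≤ 2 ^ (d + 8) * (2 ^ a * 2 ^ (n - (a + L)) *
          2 ^ (q₀ + (β + 1) * (4 * k) + β + g * w * k)) := by gcongr
    _ = 2 ^ (d + 8 + (a + (n - (a + L)) + (q₀ + (β + 1) * (4 * k) + β + g * w * k))) := by
        rw [pow_add 2 (d + 8), pow_add 2 (a + _), pow_add 2 a]
    _ ≤ 2 ^ (n - 1) := by
        apply Nat.pow_le_pow_right (by norm_num)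
        simp only [levelMin] at hL
        omega

/-- The dyadic nodes of the levels in `Good`. -/
def nodes (K : ℕ) (Good : Finset ℕ) : Finset (ℕ × ℕ) :=
  Good.biUnion fun l => (range (2 ^ (K - l - 1))).image fun m => (l, m * 2 ^ (l + 1))

omit [Fintype Q] [Fintype Γ] in
lemma sum_nodes (K : ℕ) (Good : Finset ℕ) (f : ℕ × ℕ → ℕ) :
    ∑ p ∈ nodes K Good, f p =
      ∑ l ∈ Good, ∑ m ∈ range (2 ^ (K - l - 1)), f (l, m * 2 ^ (l + 1)) := by
  classical
  rw [nodes, Finset.sum_biUnion]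
  · apply Finset.sum_congr rfl
    intro l _
    rw [Finset.sum_image]
    intro m1 _ m2 _ he
    have h1 : m1 * 2 ^ (l + 1) = m2 * 2 ^ (l + 1) := congrArg Prod.snd he
    exact Nat.eq_of_mul_eq_mul_right (by positivity) h1
  · intro l1 _ l2 _ hne
    rw [Function.onFun, Finset.disjoint_left]
    intro p hp1 hp2
    obtain ⟨m1, _, e1⟩ := Finset.mem_image.mp hp1
    obtain ⟨m2, _, e2⟩ := Finset.mem_image.mp hp2
    apply hne
    have h1 := congrArg Prod.fst e1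
    have h2 := congrArg Prod.fst e2
    simp only at h1 h2
    omega

/-- The main combinatorial bound. -/
theorem core_bound {g q₀ β K n d B y₁ : ℕ} (hk : 1 ≤ k)
    (hg : Fintype.card Γ ≤ 2 ^ g) (hg1 : 1 ≤ g) (hq : Fintype.card Q ≤ 2 ^ q₀)
    (hβ : B + 1 ≤ 2 ^ β) (hK : 2 ^ K < n) (hn : 1 ≤ n)
    (S : Finset ℕ) (hS : ∀ l ∈ S, l < K ∧ levelMin k q₀ β d ≤ 2 ^ l)
    (hgood : 8 * (S.filter (fun l => 2 ^ (d + 8) < (BadSet (2 * y₁ + 1) (2 ^ l) d).card)).card ≤ S.card)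
    (M : Machine k Q Γ) (init : Fin k → ℤ → Γ) (hM : OnlineMul M init (2 * y₁ + 1) n d)
    (hfin : ∀ x, x < 2 ^ n → ∃ t, t ≤ B ∧ n ≤ (run M init (stream x (2 * y₁ + 1)) t).out.length) :
    7 * S.card * 2 ^ K ≤ 64 * g * k ^ 2 * (B + 1) := by
  classical
  set y := 2 * y₁ + 1 with hy
  have hyodd : y % 2 = 1 := by omega
  -- the pointer reaches `2 ^ K`
  have hreach : ∀ x, x < 2 ^ n → 2 ^ K ≤ (run M init (stream x y) B).ptr := by
    intro x hx
    obtain ⟨t, ht, hlen⟩ := hfin x hx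
    have h1 := causal hM hyodd (j := n - 1) (t := t) hx (by omega) (by omega)
    have h2 := ptr_mono M init (stream x y) ht
    simp only at h2
    omega
  set Good := S.filter (fun l => ¬ 2 ^ (d + 8) < (BadSet y (2 ^ l) d).card) with hGood
  have hGoodcard : 7 * S.card ≤ 8 * Good.card := by
    have h0 : (S.filter (fun l => 2 ^ (d + 8) < (BadSet y (2 ^ l) d).card)).card + Good.card
        = S.card := Finset.card_filter_add_card_filter_not (s := S)
      (fun l => 2 ^ (d + 8) < (BadSet y (2 ^ l) d).card)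
    omega
  -- per level data
  let ww : ℕ → ℕ := fun l => 2 ^ l / (2 * g * k)
  have hpos : 0 < 2 * g * k := by positivity
  have hww1 : ∀ l, 2 * (g * ww l * k) ≤ 2 ^ l := by
    intro l
    have : (2 * g * k) * ww l ≤ 2 ^ l := Nat.mul_div_le _ _
    calc 2 * (g * ww l * k) = (2 * g * k) * ww l := by ring
      _ ≤ _ := this
  have hww2 : ∀ l, 2 ^ l ≤ (2 * g * k) * (ww l + 1) := by
    intro l
    have h1 := Nat.div_add_mod (2 ^ l) (2 * g * k)
    have h2 := Nat.mod_lt (2 ^ l) hpos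
    have h3 : (2 * g * k) * (ww l + 1) = (2 * g * k) * (2 ^ l / (2 * g * k)) + 2 * g * k := by
      simp only [ww]; ring
    omega
  -- lower bound at each node
  have hnode : ∀ l ∈ Good, ∀ m ∈ range (2 ^ (K - l - 1)),
      (ww l + 1) * 2 ^ (n - 1) ≤ ∑ x ∈ range (2 ^ n),
        omega M init (stream x y) (m * 2 ^ (l + 1)) (m * 2 ^ (l + 1) + 2 ^ l)
          (m * 2 ^ (l + 1) + 2 ^ (l + 1)) B := by
    intro l hl m hm
    obtain ⟨hlS, hlbad⟩ := Finset.mem_filter.mp hl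
    obtain ⟨hlK, hlmin⟩ := hS l hlS
    have hm' := Finset.mem_range.mp hm
    set a := m * 2 ^ (l + 1) with ha
    have h2l : 2 ^ (l + 1) = 2 * 2 ^ l := by rw [pow_succ]; ring
    have hac : a + 2 * 2 ^ l ≤ 2 ^ K := by
      have h1 : (m + 1) * 2 ^ (l + 1) ≤ 2 ^ (K - l - 1) * 2 ^ (l + 1) :=
        Nat.mul_le_mul_right _ hm'
      have h2 : 2 ^ (K - l - 1) * 2 ^ (l + 1) = 2 ^ K := by
        rw [← pow_add]; congr 1; omega
      rw [h2, add_mul, one_mul, ← ha, h2l] at h1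
      exact h1
    rw [h2l]
    apply sum_omega_ge hn
    have hcount := card_small_overlap (k := k) (w := ww l) (a := a) (L := 2 ^ l) (B := B)
      (F := 2 ^ (d + 8)) (M := M) (init := init) (y := y) (n := n) (d := d) hM hyodd
      (by positivity) (by omega) (fun x hx => (by have := hreach x hx; omega))
      (not_lt.mp hlbad)
    exact hcount.trans (count_half (hww1 l) hlmin (by omega) hg hq hβ)
  -- charging
  have hcharge : ∀ x, ∑ l ∈ Good, ∑ m ∈ range (2 ^ (K - l - 1)),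
      omega M init (stream x y) (m * 2 ^ (l + 1)) (m * 2 ^ (l + 1) + 2 ^ l)
        (m * 2 ^ (l + 1) + 2 ^ (l + 1)) B ≤ k * (B + 1) := by
    intro x
    have h1 := omega_sum_le (M := M) (init := init) (inp := stream x y) B (nodes K Good) (by
      intro p hp
      obtain ⟨l, _, hl⟩ := Finset.mem_biUnion.mp hp
      obtain ⟨m, _, e⟩ := Finset.mem_image.mp hl
      rw [← e]
      exact Dvd.intro_left _ rfl)
    rw [sum_nodes] at h1
    exact h1
  -- double counting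
  have hsum : ∑ l ∈ Good, 2 ^ (K - l - 1) * ((ww l + 1) * 2 ^ (n - 1)) ≤ 2 ^ n * (k * (B + 1)) := by
    calc ∑ l ∈ Good, 2 ^ (K - l - 1) * ((ww l + 1) * 2 ^ (n - 1))
        = ∑ l ∈ Good, ∑ _m ∈ range (2 ^ (K - l - 1)), (ww l + 1) * 2 ^ (n - 1) := by
          simp [Finset.sum_const, Finset.card_range]
      _ ≤ ∑ l ∈ Good, ∑ m ∈ range (2 ^ (K - l - 1)), ∑ x ∈ range (2 ^ n),
            omega M init (stream x y) (m * 2 ^ (l + 1)) (m * 2 ^ (l + 1) + 2 ^ l)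
              (m * 2 ^ (l + 1) + 2 ^ (l + 1)) B :=
          Finset.sum_le_sum fun l hl => Finset.sum_le_sum fun m hm => hnode l hl m hm
      _ = ∑ x ∈ range (2 ^ n), ∑ l ∈ Good, ∑ m ∈ range (2 ^ (K - l - 1)),
            omega M init (stream x y) (m * 2 ^ (l + 1)) (m * 2 ^ (l + 1) + 2 ^ l)
              (m * 2 ^ (l + 1) + 2 ^ (l + 1)) B := by
          calc ∑ l ∈ Good, ∑ m ∈ range (2 ^ (K - l - 1)), ∑ x ∈ range (2 ^ n),
                omega M init (stream x y) (m * 2 ^ (l + 1)) (m * 2 ^ (l + 1) + 2 ^ l)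
                  (m * 2 ^ (l + 1) + 2 ^ (l + 1)) B
              = ∑ l ∈ Good, ∑ x ∈ range (2 ^ n), ∑ m ∈ range (2 ^ (K - l - 1)),
                omega M init (stream x y) (m * 2 ^ (l + 1)) (m * 2 ^ (l + 1) + 2 ^ l)
                  (m * 2 ^ (l + 1) + 2 ^ (l + 1)) B :=
                Finset.sum_congr rfl fun l _ => Finset.sum_comm
            _ = _ := Finset.sum_comm
      _ ≤ ∑ _x ∈ range (2 ^ n), k * (B + 1) := Finset.sum_le_sum fun x _ => hcharge x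
      _ = _ := by simp [Finset.sum_const, Finset.card_range]
  -- arithmetic
  have hnpow : 2 ^ n = 2 * 2 ^ (n - 1) := by
    have : n = (n - 1) + 1 := by omega
    conv_lhs => rw [this, pow_succ]
    ring
  have hKpos : ∀ l ∈ Good, l < K := fun l hl => (hS l (Finset.mem_filter.mp hl).1).1
  have hlevel : ∀ l ∈ Good, 2 ^ (K - 1) * 2 ^ (n - 1) ≤
      (2 * g * k) * (2 ^ (K - l - 1) * ((ww l + 1) * 2 ^ (n - 1))) := by
    intro l hl
    have hlK := hKpos l hl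
    have h1 : 2 ^ (K - 1) = 2 ^ l * 2 ^ (K - l - 1) := by
      rw [← pow_add]; congr 1; omega
    have h2 := hww2 l
    calc 2 ^ (K - 1) * 2 ^ (n - 1) = 2 ^ l * 2 ^ (K - l - 1) * 2 ^ (n - 1) := by rw [h1]
      _ ≤ ((2 * g * k) * (ww l + 1)) * 2 ^ (K - l - 1) * 2 ^ (n - 1) := by gcongr
      _ = _ := by ring
  have hsum2 : Good.card * (2 ^ (K - 1) * 2 ^ (n - 1)) ≤ (2 * g * k) * (2 ^ n * (k * (B + 1))) := by
    calc Good.card * (2 ^ (K - 1) * 2 ^ (n - 1))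
        = ∑ _l ∈ Good, 2 ^ (K - 1) * 2 ^ (n - 1) := by simp [Finset.sum_const]
      _ ≤ ∑ l ∈ Good, (2 * g * k) * (2 ^ (K - l - 1) * ((ww l + 1) * 2 ^ (n - 1))) :=
          Finset.sum_le_sum hlevel
      _ = (2 * g * k) * ∑ l ∈ Good, 2 ^ (K - l - 1) * ((ww l + 1) * 2 ^ (n - 1)) :=
          (Finset.mul_sum _ _ _).symm
      _ ≤ _ := Nat.mul_le_mul_left _ hsum
  have hcancel : Good.card * 2 ^ (K - 1) ≤ 2 * ((2 * g * k) * (k * (B + 1))) := by
    have hp : 0 < 2 ^ (n - 1) := by positivity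
    apply Nat.le_of_mul_le_mul_right _ hp
    calc Good.card * 2 ^ (K - 1) * 2 ^ (n - 1) = Good.card * (2 ^ (K - 1) * 2 ^ (n - 1)) := by ring
      _ ≤ (2 * g * k) * (2 ^ n * (k * (B + 1))) := hsum2
      _ = _ := by rw [hnpow]; ring
  have hK2 : 2 ^ K ≤ 2 * 2 ^ (K - 1) := by
    rcases Nat.eq_zero_or_pos K with h | h
    · subst h; norm_num
    · have : K = (K - 1) + 1 := by omega
      conv_lhs => rw [this, pow_succ]
      omega
  calc 7 * S.card * 2 ^ K ≤ 8 * Good.card * 2 ^ K := Nat.mul_le_mul_right _ hGoodcard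
    _ ≤ 8 * Good.card * (2 * 2 ^ (K - 1)) := Nat.mul_le_mul_left _ hK2
    _ = 16 * (Good.card * 2 ^ (K - 1)) := by ring
    _ ≤ 16 * (2 * ((2 * g * k) * (k * (B + 1)))) := Nat.mul_le_mul_left _ hcancel
    _ = 64 * g * k ^ 2 * (B + 1) := by ring

end Vale.Agent.P338
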