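import Vale.Agent.Lib.P338.Run

namespace Vale.Agent.P338

variable {k : ℕ} {Q Γ : Type}

section Blocks
variable (M : Machine k Q Γ) (init : Fin k → ℤ → Γ) (inp : ℕ → Bool × Bool)

/-- Times up to `B` at which the pointer lies in `[lo, hi)`. -/
noncomputable def timesIn (lo hi B : ℕ) : Finset ℕ :=
  (Finset.range (B + 1)).filter fun t => lo ≤ (run M init inp t).ptr ∧ (run M init inp t).ptr < hi

/-- Cells of tape `h` visited while the pointer lies in `[lo, hi)`. -/
noncomputable def visited (h : Fin k) (lo hi B : ℕ) : Finset ℤ :=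
  (timesIn M init inp lo hi B).image fun t => (run M init inp t).head h

/-- Overlap of two consecutive blocks on tape `h`. -/
noncomputable def overlap (h : Fin k) (a b c B : ℕ) : Finset ℤ :=
  visited M init inp h a b B ∩ visited M init inp h b c B

/-- Total overlap of two consecutive blocks. -/
noncomputable def omega (a b c B : ℕ) : ℕ :=
  ∑ h : Fin k, (overlap M init inp h a b c B).card

variable {M init inp}

lemma mem_timesIn {lo hi B t : ℕ} :
    t ∈ timesIn M init inp lo hi B ↔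
      t ≤ B ∧ lo ≤ (run M init inp t).ptr ∧ (run M init inp t).ptr < hi := by
  simp [timesIn]

lemma mem_visited {h : Fin k} {lo hi B : ℕ} {z : ℤ} :
    z ∈ visited M init inp h lo hi B ↔
      ∃ t, t ≤ B ∧ lo ≤ (run M init inp t).ptr ∧ (run M init inp t).ptr < hi ∧
        (run M init inp t).head h = z := by
  simp only [visited, Finset.mem_image, mem_timesIn]
  constructor
  · rintro ⟨t, ⟨h1, h2, h3⟩, h4⟩; exact ⟨t, h1, h2, h3, h4⟩
  · rintro ⟨t, h1, h2, h3, h4⟩; exact ⟨t, ⟨h1, h2, h3⟩, h4⟩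

/-- Least element of a finite set of integers, `0` if empty. -/
noncomputable def loOf (s : Finset ℤ) : ℤ := if h : s.Nonempty then s.min' h else 0

/-- Greatest element of a finite set of integers, `0` if empty. -/
noncomputable def hiOf (s : Finset ℤ) : ℤ := if h : s.Nonempty then s.max' h else 0

lemma loOf_le {s : Finset ℤ} {z : ℤ} (hz : z ∈ s) : loOf s ≤ z := by
  have hn : s.Nonempty := ⟨z, hz⟩
  simp only [loOf, hn, dif_pos]
  exact Finset.min'_le _ _ hz

lemma le_hiOf {s : Finset ℤ} {z : ℤ} (hz : z ∈ s) : z ≤ hiOf s := by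
  have hn : s.Nonempty := ⟨z, hz⟩
  simp only [hiOf, hn, dif_pos]
  exact Finset.le_max' _ _ hz

lemma loOf_mem {s : Finset ℤ} (hn : s.Nonempty) : loOf s ∈ s := by
  simp only [loOf, hn, dif_pos]
  exact Finset.min'_mem _ _

lemma hiOf_mem {s : Finset ℤ} (hn : s.Nonempty) : hiOf s ∈ s := by
  simp only [hiOf, hn, dif_pos]
  exact Finset.max'_mem _ _

/-- The visited set of a contiguous block is an interval. -/
lemma visited_eq_Icc {h : Fin k} {lo hi B : ℕ} (hn : (visited M init inp h lo hi B).Nonempty) :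
    visited M init inp h lo hi B =
      Finset.Icc (loOf (visited M init inp h lo hi B)) (hiOf (visited M init inp h lo hi B)) := by
  ext z
  rw [Finset.mem_Icc]
  constructor
  · intro hz
    exact ⟨loOf_le hz, le_hiOf hz⟩
  · rintro ⟨h1, h2⟩
    obtain ⟨t1, a1, b1, c1, d1⟩ := mem_visited.mp (loOf_mem hn)
    obtain ⟨t2, a2, b2, c2, d2⟩ := mem_visited.mp (hiOf_mem hn)
    rw [mem_visited]
    rcases le_total t1 t2 with ht | ht
    · obtain ⟨r, r1, r2, r3⟩ := head_ivt M init inp t1 t2 ht h z (by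
        rw [d1, d2]; exact ⟨min_le_of_left_le h1, le_max_of_le_right h2⟩)
      exact ⟨r, by omega, b1.trans (ptr_mono M init inp r1),
        lt_of_le_of_lt (ptr_mono M init inp r2) c2, r3⟩
    · obtain ⟨r, r1, r2, r3⟩ := head_ivt M init inp t2 t1 ht h z (by
        rw [d1, d2]; exact ⟨min_le_of_right_le h1, le_max_of_le_left h2⟩)
      exact ⟨r, by omega, b2.trans (ptr_mono M init inp r1),
        lt_of_le_of_lt (ptr_mono M init inp r2) c1, r3⟩

lemma visited_bound {h : Fin k} {lo hi B : ℕ} {z : ℤ} (hz : z ∈ visited M init inp h lo hi B) :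
    -(B : ℤ) ≤ z ∧ z ≤ B := by
  obtain ⟨t, a1, _, _, d1⟩ := mem_visited.mp hz
  have := head_abs_le M init inp t h
  rw [d1, abs_le] at this
  have h2 : (t : ℤ) ≤ B := by exact_mod_cast a1
  constructor <;> linarith [this.1, this.2]

lemma loOf_visited_bound {h : Fin k} {lo hi B : ℕ} :
    -(B : ℤ) ≤ loOf (visited M init inp h lo hi B) ∧ loOf (visited M init inp h lo hi B) ≤ B := by
  by_cases hn : (visited M init inp h lo hi B).Nonempty
  · exact visited_bound (loOf_mem hn)
  · simp [loOf, hn]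

lemma hiOf_visited_bound {h : Fin k} {lo hi B : ℕ} :
    -(B : ℤ) ≤ hiOf (visited M init inp h lo hi B) ∧ hiOf (visited M init inp h lo hi B) ≤ B := by
  by_cases hn : (visited M init inp h lo hi B).Nonempty
  · exact visited_bound (hiOf_mem hn)
  · simp [hiOf, hn]

/-- Uniqueness of the dyadic node separating two pointer positions. -/
lemma node_unique {l1 a1 l2 a2 u v : ℕ} (h1 : 2 ^ (l1 + 1) ∣ a1) (h2 : 2 ^ (l2 + 1) ∣ a2)
    (u1 : a1 ≤ u) (u1' : u < a1 + 2 ^ l1) (v1 : a1 + 2 ^ l1 ≤ v) (v1' : v < a1 + 2 ^ (l1 + 1))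
    (u2 : a2 ≤ u) (u2' : u < a2 + 2 ^ l2) (v2 : a2 + 2 ^ l2 ≤ v) (v2' : v < a2 + 2 ^ (l2 + 1)) :
    l1 = l2 ∧ a1 = a2 := by
  have key : ∀ {l a l' a' : ℕ}, 2 ^ (l + 1) ∣ a → 2 ^ (l' + 1) ∣ a' → l < l' →
      a ≤ u → v < a + 2 ^ (l + 1) → u < a' + 2 ^ l' → a' + 2 ^ l' ≤ v → False := by
    intro l a l' a' ha ha' hl h3 h4 h5 h6
    have d1 : 2 ^ (l + 1) ∣ 2 ^ l' := pow_dvd_pow 2 (by omega)
    have d2 : 2 ^ (l + 1) ∣ a' := (pow_dvd_pow 2 (by omega)).trans ha'
    have d3 : 2 ^ (l + 1) ∣ a' + 2 ^ l' := Nat.dvd_add d2 d1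
    obtain ⟨m, hm⟩ := ha
    obtain ⟨m', hm'⟩ := d3
    have h7 : 2 ^ (l + 1) * m < 2 ^ (l + 1) * m' := by
      rw [← hm, ← hm']; omega
    have h8 : 2 ^ (l + 1) * m' < 2 ^ (l + 1) * (m + 1) := by
      rw [mul_add, mul_one, ← hm, ← hm']; omega
    have h9 := Nat.lt_of_mul_lt_mul_left h7
    have h10 := Nat.lt_of_mul_lt_mul_left h8
    omega
  have hl : l1 = l2 := by
    rcases lt_trichotomy l1 l2 with h | h | h
    · exact (key h1 h2 h u1 v1' u2' v2).elim
    · exact h
    · exact (key h2 h1 h u2 v2' u1' v1).elim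
  subst hl
  refine ⟨rfl, ?_⟩
  obtain ⟨m, hm⟩ := h1
  obtain ⟨m', hm'⟩ := h2
  have h3 : m < m' + 1 := by
    have : 2 ^ (l1 + 1) * m < 2 ^ (l1 + 1) * (m' + 1) := by
      rw [mul_add, mul_one, ← hm, ← hm']; omega
    exact Nat.lt_of_mul_lt_mul_left this
  have h4 : m' < m + 1 := by
    have : 2 ^ (l1 + 1) * m' < 2 ^ (l1 + 1) * (m + 1) := by
      rw [mul_add, mul_one, ← hm, ← hm']; omega
    exact Nat.lt_of_mul_lt_mul_left this
  have : m = m' := by omega
  rw [hm, hm', this]

/-- First visit of the cell `z` in a block. -/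
noncomputable def firstVisit (M : Machine k Q Γ) (init : Fin k → ℤ → Γ)
    (inp : ℕ → Bool × Bool) (h : Fin k) (b c : ℕ) (z : ℤ) : ℕ :=
  sInf {t | b ≤ (run M init inp t).ptr ∧ (run M init inp t).ptr < c ∧ (run M init inp t).head h = z}

lemma firstVisit_spec {h : Fin k} {b c B : ℕ} {z : ℤ} (hz : z ∈ visited M init inp h b c B) :
    firstVisit M init inp h b c z ≤ B ∧ b ≤ (run M init inp (firstVisit M init inp h b c z)).ptr ∧
      (run M init inp (firstVisit M init inp h b c z)).ptr < c ∧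
      (run M init inp (firstVisit M init inp h b c z)).head h = z := by
  obtain ⟨t, a1, b1, c1, d1⟩ := mem_visited.mp hz
  have hne : {t | b ≤ (run M init inp t).ptr ∧ (run M init inp t).ptr < c ∧
      (run M init inp t).head h = z}.Nonempty := ⟨t, b1, c1, d1⟩
  have h1 := Nat.sInf_mem hne
  have h2 : firstVisit M init inp h b c z ≤ t := Nat.sInf_le ⟨b1, c1, d1⟩
  exact ⟨h2.trans a1, h1.1, h1.2.1, h1.2.2⟩

lemma firstVisit_le {h : Fin k} {b c t : ℕ} {z : ℤ} (h1 : b ≤ (run M init inp t).ptr)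
    (h2 : (run M init inp t).ptr < c) (h3 : (run M init inp t).head h = z) :
    firstVisit M init inp h b c z ≤ t :=
  Nat.sInf_le ⟨h1, h2, h3⟩

/-- The charging lemma on one tape. -/
lemma overlap_sum_le (h : Fin k) (B : ℕ) (N : Finset (ℕ × ℕ))
    (hN : ∀ n ∈ N, 2 ^ (n.1 + 1) ∣ n.2) :
    ∑ n ∈ N, (overlap M init inp h n.2 (n.2 + 2 ^ n.1) (n.2 + 2 ^ (n.1 + 1)) B).card ≤ B + 1 := by
  classical
  let F : ℕ × ℕ → Finset ℕ := fun n =>
    (overlap M init inp h n.2 (n.2 + 2 ^ n.1) (n.2 + 2 ^ (n.1 + 1)) B).image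
      (firstVisit M init inp h (n.2 + 2 ^ n.1) (n.2 + 2 ^ (n.1 + 1)))
  have hcard : ∀ n, (F n).card =
      (overlap M init inp h n.2 (n.2 + 2 ^ n.1) (n.2 + 2 ^ (n.1 + 1)) B).card := by
    intro n
    apply Finset.card_image_of_injOn
    intro z hz z' hz' he
    have hz1 := (Finset.mem_inter.mp hz).2
    have hz2 := (Finset.mem_inter.mp hz').2
    have e1 := (firstVisit_spec hz1).2.2.2
    have e2 := (firstVisit_spec hz2).2.2.2
    rw [← e1, ← e2, he]
  have hdisj : (N : Set (ℕ × ℕ)).PairwiseDisjoint F := by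
    intro n1 hn1 n2 hn2 hne
    rw [Function.onFun, Finset.disjoint_left]
    intro t ht1 ht2
    obtain ⟨z1, hz1, e1⟩ := Finset.mem_image.mp ht1
    obtain ⟨z2, hz2, e2⟩ := Finset.mem_image.mp ht2
    apply hne
    have a1 := Finset.mem_inter.mp hz1
    have a2 := Finset.mem_inter.mp hz2
    obtain ⟨-, c1, d1, f1⟩ := firstVisit_spec a1.2
    obtain ⟨-, c2, d2, f2⟩ := firstVisit_spec a2.2
    rw [e1] at c1 d1 f1
    rw [e2] at c2 d2 f2
    have hzz : z1 = z2 := by rw [← f1, ← f2]
    subst hzz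
    obtain ⟨t1, p1, q1, r1, s1⟩ := mem_visited.mp a1.1
    obtain ⟨t2, p2, q2, r2, s2⟩ := mem_visited.mp a2.1
    have lt1 : t1 < t := by
      by_contra hcon
      have := ptr_mono M init inp (not_lt.mp hcon)
      simp only at this
      omega
    have lt2 : t2 < t := by
      by_contra hcon
      have := ptr_mono M init inp (not_lt.mp hcon)
      simp only at this
      omega
    -- the later of `t1, t2` lies in both first blocks
    have hd1 := hN n1 (by exact_mod_cast hn1)
    have hd2 := hN n2 (by exact_mod_cast hn2)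
    have hfin : n1.1 = n2.1 ∧ n1.2 = n2.2 := by
      rcases le_total t1 t2 with hle | hle
      · have mono1 := ptr_mono M init inp hle
        have mono2 := ptr_mono M init inp lt2.le
        simp only at mono1 mono2
        have hu : (run M init inp t2).ptr < n1.2 + 2 ^ n1.1 := by
          by_contra hcon
          have : firstVisit M init inp h (n1.2 + 2 ^ n1.1) (n1.2 + 2 ^ (n1.1 + 1)) z1 ≤ t2 :=
            firstVisit_le (not_lt.mp hcon) (by omega) s2
          rw [e1] at this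
          omega
        exact node_unique hd1 hd2 (by omega) hu c1 d1 q2 r2 c2 d2
      · have mono1 := ptr_mono M init inp hle
        have mono2 := ptr_mono M init inp lt1.le
        simp only at mono1 mono2
        have hu : (run M init inp t1).ptr < n2.2 + 2 ^ n2.1 := by
          by_contra hcon
          have : firstVisit M init inp h (n2.2 + 2 ^ n2.1) (n2.2 + 2 ^ (n2.1 + 1)) z1 ≤ t1 :=
            firstVisit_le (not_lt.mp hcon) (by omega) s1
          rw [e2] at this
          omega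
        exact node_unique hd1 hd2 q1 r1 c1 d1 (by omega) hu c2 d2
    exact Prod.ext hfin.1 hfin.2
  calc ∑ n ∈ N, (overlap M init inp h n.2 (n.2 + 2 ^ n.1) (n.2 + 2 ^ (n.1 + 1)) B).card
      = ∑ n ∈ N, (F n).card := by simp only [hcard]
    _ = (N.biUnion F).card := (Finset.card_biUnion hdisj).symm
    _ ≤ (Finset.range (B + 1)).card := by
        apply Finset.card_le_card
        intro t ht
        obtain ⟨n, _, hn⟩ := Finset.mem_biUnion.mp ht
        obtain ⟨z, hz, e⟩ := Finset.mem_image.mp hn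
        have := (firstVisit_spec (Finset.mem_inter.mp hz).2).1
        rw [e] at this
        exact Finset.mem_range.mpr (by omega)
    _ = B + 1 := Finset.card_range _

/-- The charging lemma. -/
lemma omega_sum_le (B : ℕ) (N : Finset (ℕ × ℕ)) (hN : ∀ n ∈ N, 2 ^ (n.1 + 1) ∣ n.2) :
    ∑ n ∈ N, omega M init inp n.2 (n.2 + 2 ^ n.1) (n.2 + 2 ^ (n.1 + 1)) B ≤ k * (B + 1) := by
  simp only [omega]
  rw [Finset.sum_comm]
  calc ∑ h : Fin k, ∑ n ∈ N, (overlap M init inp h n.2 (n.2 + 2 ^ n.1) (n.2 + 2 ^ (n.1 + 1)) B).card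
      ≤ ∑ _h : Fin k, (B + 1) := Finset.sum_le_sum fun h _ => overlap_sum_le h B N hN
    _ = k * (B + 1) := by simp

end Blocks

end Vale.Agent.P338
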