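import Vale.Agent.Lib.P338.Lockstep
import Vale.Agent.Lib.P338.Arith

namespace Vale.Agent.P338

open Finset

variable {k : ℕ} {Q Γ : Type}

section Causal
variable {M : Machine k Q Γ} {init : Fin k → ℤ → Γ} {y n d : ℕ}

/-- Bit `j` of the product cannot be emitted before the input letter `j` is seen. -/
lemma causal (hM : OnlineMul M init y n d) (hy : y % 2 = 1) {x j t : ℕ} (hx : x < 2 ^ n)
    (hj : j < n) (hlen : j < (run M init (stream x y) t).out.length) :
    j ≤ (run M init (stream x y) t).ptr := by
  by_contra hcon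
  have hlt : (run M init (stream x y) t).ptr < j := not_le.mp hcon
  set x' := x ^^^ 2 ^ j with hx'
  have hx'lt : x' < 2 ^ n := Nat.xor_lt_two_pow hx (Nat.pow_lt_pow_right (by norm_num) hj)
  have hbit : ∀ i, i ≠ j → x'.testBit i = x.testBit i := by
    intro i hi
    rw [hx', Nat.testBit_xor, Nat.testBit_two_pow_of_ne (Ne.symm hi)]
    simp
  have hrun : run M init (stream x y) t = run M init (stream x' y) t := by
    apply run_congr
    intro s hs
    have h1 := ptr_mono M init (stream x y) hs.le
    simp only at h1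
    simp only [stream]
    rw [hbit _ (by omega)]
  have h1 := (hM x hx t).1 j hj hlen
  have h2 := (hM x' hx'lt t).1 j hj (by rw [← hrun]; exact hlen)
  rw [← hrun, h1] at h2
  have h3 : (x * y).testBit j = (x' * y).testBit j := by simpa using h2
  refine testBit_mul_ne hy ?_ ?_ h3
  · apply Nat.eq_of_testBit_eq
    intro i
    rw [Nat.testBit_mod_two_pow, Nat.testBit_mod_two_pow]
    by_cases hi : i < j
    · simp only [hi, decide_true, Bool.true_and]
      exact (hbit i (by omega)).symm
    · simp [hi]
  · rw [hx', Nat.testBit_xor, Nat.testBit_two_pow_self]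
    simp

/-- Equal signatures force equal product bits in the window. -/
lemma window_agree (hM : OnlineMul M init y n d) (hy : y % 2 = 1)
    {x x₀ w a L B : ℕ} (hL : 0 < L) (hx : x < 2 ^ n) (hx₀ : x₀ < 2 ^ n) (hc : a + 2 * L < n)
    (hr : a + 2 * L ≤ (run M init (stream x y) B).ptr)
    (hr₀ : a + 2 * L ≤ (run M init (stream x₀ y) B).ptr)
    (hmod : x % 2 ^ a = x₀ % 2 ^ a) (hdiv : x / 2 ^ (a + L) = x₀ / 2 ^ (a + L))
    (hsig : sig M init (stream x y) w a (a + L) (a + 2 * L) B =
      sig M init (stream x₀ y) w a (a + L) (a + 2 * L) B)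
    (hw : omega M init (stream x y) a (a + L) (a + 2 * L) B ≤ w) :
    ∀ j, a + L + 1 ≤ j → j < a + (2 * L - d) → (x * y).testBit j = (x₀ * y).testBit j := by
  intro j hj1 hj2
  have hag1 : ∀ i, i < a → stream x y i = stream x₀ y i := by
    intro i hi
    have h1 : (x % 2 ^ a).testBit i = (x₀ % 2 ^ a).testBit i := by rw [hmod]
    rw [Nat.testBit_mod_two_pow, Nat.testBit_mod_two_pow] at h1
    simp only [hi, decide_true, Bool.true_and] at h1
    simp only [stream, h1]
  have hag2 : ∀ i, a + L ≤ i → stream x y i = stream x₀ y i := by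
    intro i hi
    have h1 : (x / 2 ^ (a + L)).testBit (i - (a + L)) = (x₀ / 2 ^ (a + L)).testBit (i - (a + L)) := by
      rw [hdiv]
    rw [Nat.testBit_div_two_pow, Nat.testBit_div_two_pow] at h1
    have h2 : i - (a + L) + (a + L) = i := by omega
    rw [h2] at h1
    simp only [stream, h1]
  obtain ⟨S, e, h1, h2, h3, h4, h5⟩ := same_after_block (w := w) (a := a) (b := a + L)
    (c := a + 2 * L) (B := B) (M := M) (init := init) (inp := stream x y) (inp' := stream x₀ y)
    (by omega) (by omega) hag1 hag2 hr hr₀ hsig hw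
  have rb : ∃ t, a + L ≤ (run M init (stream x y) t).ptr := ⟨B, by omega⟩
  have rb₀ : ∃ t, a + L ≤ (run M init (stream x₀ y) t).ptr := ⟨B, by omega⟩
  have rc : ∃ t, a + 2 * L ≤ (run M init (stream x y) t).ptr := ⟨B, hr⟩
  set τ := tau M init (stream x y) (a + L) with hτ
  set τ₀ := tau M init (stream x₀ y) (a + L) with hτ₀
  have hjn : j < n := by omega
  -- delay
  have hp : (run M init (stream x y) (τ + S)).ptr = a + 2 * L := by
    rw [← h1]; exact ptr_tau rc
  have hl1 : j < (run M init (stream x y) (τ + S)).out.length :=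
    (hM x hx (τ + S)).2 j hjn (by rw [hp]; omega)
  have hl2 : j < (run M init (stream x₀ y) (τ₀ + S)).out.length :=
    (hM x₀ hx₀ (τ₀ + S)).2 j hjn (by rw [h4]; omega)
  -- the index lies in the common part
  have hle : (run M init (stream x y) τ).out.length ≤ j := by
    by_contra hcon
    have := causal hM hy hx hjn (not_le.mp hcon)
    rw [hτ, ptr_tau rb] at this
    omega
  have hle₀ : (run M init (stream x₀ y) τ₀).out.length ≤ j := by rw [← h5]; exact hle
  have b1 := (hM x hx (τ + S)).1 j hjn hl1
  have b2 := (hM x₀ hx₀ (τ₀ + S)).1 j hjn hl2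
  rw [h2, List.getElem?_append_right hle] at b1
  rw [h3, List.getElem?_append_right hle₀, ← h5, b1] at b2
  simpa using b2

end Causal

variable [Fintype Q] [Fintype Γ]

section Count
variable {M : Machine k Q Γ} {init : Fin k → ℤ → Γ} {y n d : ℕ}

/-- Finite range of signatures. -/
noncomputable def sigRange (k : ℕ) (Q Γ : Type) [Fintype Q] [Fintype Γ] (w B : ℕ) :
    Finset (Q × (Fin k → ℤ) × (Fin k → ℤ) × (Fin k → ℤ) × (Fin k → ℤ) × ℕ × (Fin k → Fin w → Γ)) := by
  classical
  exact (Finset.univ : Finset Q) ×ˢ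
    (Fintype.piFinset fun _ : Fin k => Finset.Icc (-(B : ℤ)) B) ×ˢ
    (Fintype.piFinset fun _ : Fin k => Finset.Icc (-(B : ℤ)) B) ×ˢ
    (Fintype.piFinset fun _ : Fin k => Finset.Icc (-(B : ℤ)) B) ×ˢ
    (Fintype.piFinset fun _ : Fin k => Finset.Icc (-(B : ℤ)) B) ×ˢ
    (Finset.range (B + 1)) ×ˢ (Finset.univ : Finset (Fin k → Fin w → Γ))

lemma card_sigRange (w B : ℕ) :
    (sigRange k Q Γ w B).card =
      Fintype.card Q * (2 * B + 1) ^ (4 * k) * (B + 1) * (Fintype.card Γ ^ w) ^ k := by
  classical
  have h1 : (Finset.Icc (-(B : ℤ)) B).card = 2 * B + 1 := by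
    rw [Int.card_Icc]; omega
  simp only [sigRange, Finset.card_product, Fintype.card_piFinset, Finset.prod_const,
    Finset.card_univ, Fintype.card_fin, h1, Finset.card_range, Fintype.card_pi, Finset.prod_const]
  ring

lemma sig_mem_range {inp : ℕ → Bool × Bool} {w a b c B : ℕ} (hb : b ≤ (run M init inp B).ptr) :
    sig M init inp w a b c B ∈ sigRange k Q Γ w B := by
  classical
  have hτ : tau M init inp b ≤ B := tau_le hb
  have hτ' : ((tau M init inp b : ℕ) : ℤ) ≤ B := by exact_mod_cast hτ
  simp only [sigRange, sig, Finset.mem_product, Finset.mem_univ, true_and, Fintype.mem_piFinset,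
    Finset.mem_Icc, Finset.mem_range, and_true]
  refine ⟨?_, ?_, ?_, ?_, ?_⟩
  · intro h
    have := head_abs_le M init inp (tau M init inp b) h
    rw [abs_le] at this
    constructor <;> linarith [this.1, this.2]
  · intro h; exact loOf_visited_bound
  · intro h; exact hiOf_visited_bound
  · intro h
    have h1 := loOf_visited_bound (M := M) (init := init) (inp := inp) (h := h) (lo := a) (hi := b) (B := B)
    have h2 := loOf_visited_bound (M := M) (init := init) (inp := inp) (h := h) (lo := b) (hi := c) (B := B)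
    constructor
    · exact le_max_of_le_left h1.1
    · exact max_le h1.2 h2.2
  · have := out_len_le M init inp (tau M init inp b)
    omega

/-- Main counting step: at a good scale few inputs have a small overlap. -/
lemma card_small_overlap (hM : OnlineMul M init y n d) (hy : y % 2 = 1)
    {w a L B F : ℕ} (hL : 0 < L) (hc : a + 2 * L < n)
    (hreach : ∀ x, x < 2 ^ n → a + 2 * L ≤ (run M init (stream x y) B).ptr)
    (hbad : (BadSet y L d).card ≤ F) :
    ((range (2 ^ n)).filter fun x =>
        omega M init (stream x y) a (a + L) (a + 2 * L) B ≤ w).card ≤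
      F * (2 ^ a * 2 ^ (n - (a + L)) * (sigRange k Q Γ w B).card) := by
  classical
  set G := (range (2 ^ n)).filter fun x => omega M init (stream x y) a (a + L) (a + 2 * L) B ≤ w
    with hG
  let Φ : ℕ → ℕ × ℕ × _ := fun x =>
    (x % 2 ^ a, x / 2 ^ (a + L), sig M init (stream x y) w a (a + L) (a + 2 * L) B)
  have hfib : ∀ s ∈ G.image Φ, (G.filter fun x => Φ x = s).card ≤ F := by
    intro s hs
    obtain ⟨x₀, hx₀, rfl⟩ := Finset.mem_image.mp hs
    have hx₀lt : x₀ < 2 ^ n := Finset.mem_range.mp (Finset.mem_filter.mp hx₀).1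
    refine le_trans ?_ hbad
    apply Finset.card_le_card_of_injOn (fun x : ℕ => ((x : ℤ) - x₀) / 2 ^ a)
    · intro x hx
      have hx' := Finset.mem_filter.mp (Finset.mem_coe.mp hx)
      have hxG := Finset.mem_filter.mp hx'.1
      have hxlt : x < 2 ^ n := Finset.mem_range.mp hxG.1
      have he : Φ x = Φ x₀ := hx'.2
      simp only [Φ, Prod.mk.injEq] at he
      obtain ⟨e1, e2, e3⟩ := he
      have hwin := window_agree hM hy hL hxlt hx₀lt hc (hreach x hxlt) (hreach x₀ hx₀lt) e1 e2 e3 hxG.2
      obtain ⟨v, hv, hvx⟩ := bad_of_window e1 e2 hwin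
      simp only
      rw [hvx, Int.mul_ediv_cancel_left _ (by positivity)]
      exact hv
    · intro x1 hx1 x2 hx2 he
      have hx1' := Finset.mem_filter.mp (Finset.mem_coe.mp hx1)
      have hx2' := Finset.mem_filter.mp (Finset.mem_coe.mp hx2)
      have hxG1 := Finset.mem_filter.mp hx1'.1
      have hxG2 := Finset.mem_filter.mp hx2'.1
      have h1lt : x1 < 2 ^ n := Finset.mem_range.mp hxG1.1
      have h2lt : x2 < 2 ^ n := Finset.mem_range.mp hxG2.1
      have he1 : Φ x1 = Φ x₀ := hx1'.2
      have he2 : Φ x2 = Φ x₀ := hx2'.2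
      simp only [Φ, Prod.mk.injEq] at he1 he2
      have hd1 : ((2 : ℤ) ^ a) ∣ (x1 : ℤ) - x₀ := by
        have := (Nat.modEq_iff_dvd (n := 2 ^ a) (a := x₀) (b := x1)).mp he1.1.symm
        simpa using this
      have hd2 : ((2 : ℤ) ^ a) ∣ (x2 : ℤ) - x₀ := by
        have := (Nat.modEq_iff_dvd (n := 2 ^ a) (a := x₀) (b := x2)).mp he2.1.symm
        simpa using this
      simp only at he
      have e1 := Int.mul_ediv_cancel' hd1
      have e2 := Int.mul_ediv_cancel' hd2
      have : (x1 : ℤ) - x₀ = (x2 : ℤ) - x₀ := by rw [← e1, ← e2, he]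
      omega
  have himg : (G.image Φ).card ≤ 2 ^ a * 2 ^ (n - (a + L)) * (sigRange k Q Γ w B).card := by
    have hsub : G.image Φ ⊆ (range (2 ^ a)) ×ˢ (range (2 ^ (n - (a + L)))) ×ˢ sigRange k Q Γ w B := by
      intro s hs
      obtain ⟨x, hx, rfl⟩ := Finset.mem_image.mp hs
      have hxlt : x < 2 ^ n := Finset.mem_range.mp (Finset.mem_filter.mp hx).1
      simp only [Φ, Finset.mem_product, Finset.mem_range]
      refine ⟨Nat.mod_lt _ (by positivity), ?_, sig_mem_range (by have := hreach x hxlt; omega)⟩
      rw [Nat.div_lt_iff_lt_mul (by positivity), ← pow_add]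
      have : n - (a + L) + (a + L) = n := by omega
      rw [this]
      exact hxlt
    calc (G.image Φ).card ≤ _ := Finset.card_le_card hsub
      _ = _ := by simp only [Finset.card_product, Finset.card_range]; ring
  calc G.card ≤ F * (G.image Φ).card := Finset.card_le_mul_card_image G F hfib
    _ ≤ _ := Nat.mul_le_mul_left _ himg

/-- Consequence: the total overlap of a block pair, summed over the inputs, is large. -/
lemma sum_omega_ge {w a L B : ℕ} (hn : 1 ≤ n)
    (hcount : ((range (2 ^ n)).filter fun x =>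
        omega M init (stream x y) a (a + L) (a + 2 * L) B ≤ w).card ≤ 2 ^ (n - 1)) :
    (w + 1) * 2 ^ (n - 1) ≤
      ∑ x ∈ range (2 ^ n), omega M init (stream x y) a (a + L) (a + 2 * L) B := by
  classical
  set f := fun x => omega M init (stream x y) a (a + L) (a + 2 * L) B with hf
  set A := (range (2 ^ n)).filter fun x => ¬ f x ≤ w with hA
  have hsplit : ((range (2 ^ n)).filter fun x => f x ≤ w).card + A.card = 2 ^ n := by
    have h0 := Finset.card_filter_add_card_filter_not (s := range (2 ^ n)) (fun x => f x ≤ w)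
    rw [Finset.card_range] at h0
    exact h0
  have hpow : 2 ^ n = 2 * 2 ^ (n - 1) := by
    have : n = (n - 1) + 1 := by omega
    conv_lhs => rw [this, pow_succ]
    ring
  have hc' : ((range (2 ^ n)).filter fun x => f x ≤ w).card ≤ 2 ^ (n - 1) := hcount
  have hAcard : 2 ^ (n - 1) ≤ A.card := by
    omega
  calc (w + 1) * 2 ^ (n - 1) ≤ (w + 1) * A.card := Nat.mul_le_mul_left _ hAcard
    _ = A.card * (w + 1) := by ring
    _ ≤ ∑ x ∈ A, f x := by
        rw [← smul_eq_mul]
        apply Finset.card_nsmul_le_sum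
        intro x hx
        have := (Finset.mem_filter.mp hx).2
        omega
    _ ≤ ∑ x ∈ range (2 ^ n), f x := Finset.sum_le_sum_of_subset (Finset.filter_subset _ _)

end Count

end Vale.Agent.P338
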