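import Mathlib

/-! Multitape transducers with a one-way input stream and a one-way output stream. -/

namespace Vale.Agent.P338

/-- One move of the finite control. -/
structure Act (k : ℕ) (Q Γ : Type) where
  next : Q
  write : Fin k → Γ
  move : Fin k → SignType
  adv : Bool
  emit : Option Bool

/-- A `k`-tape machine: the control sees its state, the current input letter
(a pair of bits) and the `k` scanned symbols. -/
structure Machine (k : ℕ) (Q Γ : Type) where
  start : Q
  δ : Q → Bool × Bool → (Fin k → Γ) → Act k Q Γ

/-- Configurations. `ptr` is the index of the input letter being seen. -/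
structure Cfg (k : ℕ) (Q Γ : Type) where
  st : Q
  tape : Fin k → ℤ → Γ
  head : Fin k → ℤ
  ptr : ℕ
  out : List Bool

variable {k : ℕ} {Q Γ : Type}

/-- One step, on input stream `inp`. -/
def step (M : Machine k Q Γ) (inp : ℕ → Bool × Bool) (c : Cfg k Q Γ) : Cfg k Q Γ :=
  let a := M.δ c.st (inp c.ptr) (fun h => c.tape h (c.head h))
  { st := a.next
    tape := fun h => Function.update (c.tape h) (c.head h) (a.write h)
    head := fun h => c.head h + ((a.move h : SignType) : ℤ)
    ptr := c.ptr + (if a.adv then 1 else 0)
    out := c.out ++ a.emit.toList }

/-- Initial configuration, with arbitrary initial tape contents `init`. -/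
def initCfg (M : Machine k Q Γ) (init : Fin k → ℤ → Γ) : Cfg k Q Γ :=
  { st := M.start, tape := init, head := fun _ => 0, ptr := 0, out := [] }

/-- The run of `M`. -/
def run (M : Machine k Q Γ) (init : Fin k → ℤ → Γ) (inp : ℕ → Bool × Bool) : ℕ → Cfg k Q Γ
  | 0 => initCfg M init
  | t + 1 => step M inp (run M init inp t)

/-- The input stream carrying the bits of `x` and `y`, least significant first. -/
def stream (x y : ℕ) : ℕ → Bool × Bool := fun i => (x.testBit i, y.testBit i)

/-- `M`, started on tape contents `init` (which may depend on `y` in any way), multiplies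
`n`-bit numbers `x` by `y` on line with delay `d`: every emitted bit of index `j < n` is bit `j`
of `x * y`, and bit `j` has been emitted before the input letter of index `j + d + 1` is seen. -/
def OnlineMul (M : Machine k Q Γ) (init : Fin k → ℤ → Γ) (y n d : ℕ) : Prop :=
  ∀ x, x < 2 ^ n → ∀ t,
    (∀ j, j < n → j < (run M init (stream x y) t).out.length →
      (run M init (stream x y) t).out[j]? = some ((x * y).testBit j)) ∧
    (∀ j, j < n → j + d < (run M init (stream x y) t).ptr →
      j < (run M init (stream x y) t).out.length)

end Vale.Agent.P338
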