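import Vale.Agent.Lib.P338.Assemble

namespace Vale.Agent.P338

open Finset

/-- Base two logarithm facts. -/
lemma lg_facts {n K : ℕ} (hn : 2 ≤ n) (hK1 : 2 ^ K < n) (hK2 : n ≤ 2 ^ (K + 1)) :
    1 ≤ Real.logb 2 n ∧ (K : ℝ) ≤ Real.logb 2 n ∧ Real.logb 2 n ≤ K + 1 ∧ Real.logb 2 n ≤ n := by
  have h2 : (1 : ℝ) < 2 := by norm_num
  have hnpos : (0 : ℝ) < n := by exact_mod_cast (by omega : 0 < n)
  have hself : Real.logb 2 2 = 1 := Real.logb_self_eq_one h2
  refine ⟨?_, ?_, ?_, ?_⟩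
  · have : Real.logb 2 2 ≤ Real.logb 2 n :=
      Real.logb_le_logb_of_le h2 (by norm_num) (by exact_mod_cast hn)
    rwa [hself] at this
  · have : Real.logb 2 ((2 : ℝ) ^ K) ≤ Real.logb 2 n :=
      Real.logb_le_logb_of_le h2 (by positivity) (by exact_mod_cast hK1.le)
    rwa [Real.logb_pow, hself, mul_one] at this
  · have : Real.logb 2 n ≤ Real.logb 2 ((2 : ℝ) ^ (K + 1)) :=
      Real.logb_le_logb_of_le h2 hnpos (by exact_mod_cast hK2)
    rw [Real.logb_pow, hself, mul_one] at this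
    push_cast at this
    exact this
  · have h3 : n < 2 ^ n := Nat.lt_two_pow_self
    have : Real.logb 2 n ≤ Real.logb 2 ((2 : ℝ) ^ n) :=
      Real.logb_le_logb_of_le h2 hnpos (by exact_mod_cast h3.le)
    rwa [Real.logb_pow, hself, mul_one] at this

/-- The number of good levels is close to the target logarithm. -/
lemma card_levels_ge {k q₀ K d : ℕ} (n : ℕ) (hk2 : (K : ℝ) ≤ Real.logb 2 n)
    (hk3 : Real.logb 2 n ≤ K + 1) (hD : 1 ≤ (d : ℝ) + Real.logb 2 n) :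
    Real.logb 2 n - Real.logb 2 ((d : ℝ) + Real.logb 2 n) - ((2 * q₀ + 48 * k + 30 : ℕ) + 2 : ℝ) ≤
      (((range K).filter (fun l => levelMin k q₀ (2 * K + 3) d ≤ 2 ^ l)).card : ℝ) := by
  set D := (d : ℝ) + Real.logb 2 n with hDdef
  set C₃ : ℕ := 2 * q₀ + 48 * k + 30 with hC₃
  set LM := levelMin k q₀ (2 * K + 3) d with hLM
  have hLMpos : LM ≠ 0 := by
    simp only [hLM, levelMin]; omega
  have hLMeq : LM = (2 * q₀ + 32 * k + 24) + (16 * k + 4) * K + 2 * d := by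
    simp only [hLM, levelMin]; ring
  have hLMle : (LM : ℝ) ≤ C₃ * D := by
    rw [hLMeq, hC₃]
    push_cast
    have hK0 : (0 : ℝ) ≤ K := by positivity
    have hd0 : (0 : ℝ) ≤ d := by positivity
    have hk0 : (0 : ℝ) ≤ k := by positivity
    have hq0 : (0 : ℝ) ≤ q₀ := by positivity
    have hKD : (K : ℝ) ≤ D := by rw [hDdef]; linarith
    have hdD : (d : ℝ) ≤ D := by
      rw [hDdef]
      have : (0 : ℝ) ≤ Real.logb 2 n := by linarith
      linarith
    have h1 : (2 * (q₀ : ℝ) + 32 * k + 24) * 1 ≤ (2 * (q₀ : ℝ) + 32 * k + 24) * D :=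
      mul_le_mul_of_nonneg_left hD (by positivity)
    have h2 : (16 * (k : ℝ) + 4) * K ≤ (16 * (k : ℝ) + 4) * D :=
      mul_le_mul_of_nonneg_left hKD (by positivity)
    nlinarith
  set L₀ := Nat.log 2 LM + 1 with hL₀
  have hsub : Finset.Ico L₀ K ⊆ (range K).filter (fun l => LM ≤ 2 ^ l) := by
    intro l hl
    obtain ⟨h1, h2⟩ := Finset.mem_Ico.mp hl
    refine Finset.mem_filter.mpr ⟨Finset.mem_range.mpr h2, ?_⟩
    have h3 : LM < 2 ^ (Nat.log 2 LM).succ := Nat.lt_pow_succ_log_self (by norm_num) LM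
    exact h3.le.trans (Nat.pow_le_pow_right (by norm_num) h1)
  have hcard : K - L₀ ≤ ((range K).filter (fun l => LM ≤ 2 ^ l)).card := by
    have := Finset.card_le_card hsub
    rwa [Nat.card_Ico] at this
  have hcardR : (K : ℝ) - L₀ ≤ (((range K).filter (fun l => LM ≤ 2 ^ l)).card : ℝ) := by
    have h1 : ((K - L₀ : ℕ) : ℝ) ≤ (((range K).filter (fun l => LM ≤ 2 ^ l)).card : ℝ) := by
      exact_mod_cast hcard
    have h2 : (K : ℝ) - L₀ ≤ ((K - L₀ : ℕ) : ℝ) := by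
      rw [sub_le_iff_le_add]
      have : K ≤ (K - L₀) + L₀ := by omega
      exact_mod_cast this
    linarith
  -- `L₀` is bounded by the logarithm
  have h2 : (1 : ℝ) < 2 := by norm_num
  have hself : Real.logb 2 2 = 1 := Real.logb_self_eq_one h2
  have hlog : ((Nat.log 2 LM : ℕ) : ℝ) ≤ Real.logb 2 LM := by
    have h1 : 2 ^ Nat.log 2 LM ≤ LM := Nat.pow_log_le_self 2 hLMpos
    have h3 : Real.logb 2 ((2 : ℝ) ^ Nat.log 2 LM) ≤ Real.logb 2 LM :=
      Real.logb_le_logb_of_le h2 (by positivity) (by exact_mod_cast h1)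
    rwa [Real.logb_pow, hself, mul_one] at h3
  have hDpos : 0 < D := by linarith
  have hLMpos' : (0 : ℝ) < LM := by exact_mod_cast Nat.pos_of_ne_zero hLMpos
  have hC₃pos : (0 : ℝ) < C₃ := by
    have : 0 < C₃ := by omega
    exact_mod_cast this
  have hlog2 : Real.logb 2 LM ≤ Real.logb 2 C₃ + Real.logb 2 D := by
    rw [← Real.logb_mul hC₃pos.ne' hDpos.ne']
    exact Real.logb_le_logb_of_le h2 hLMpos' hLMle
  have hC₃log : Real.logb 2 C₃ ≤ C₃ := by
    have h3 : C₃ < 2 ^ C₃ := Nat.lt_two_pow_self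
    have h4 : Real.logb 2 C₃ ≤ Real.logb 2 ((2 : ℝ) ^ C₃) :=
      Real.logb_le_logb_of_le h2 hC₃pos (by exact_mod_cast h3.le)
    rwa [Real.logb_pow, hself, mul_one] at h4
  have hL₀R : (L₀ : ℝ) = (Nat.log 2 LM : ℕ) + 1 := by rw [hL₀]; push_cast; rfl
  rw [hL₀R] at hcardR
  linarith

/-- The final arithmetic contradiction. -/
lemma final_arith {G A X Lam s N B n : ℝ} (hApos : 0 < A) (hnpos : 0 < n) (hGA : 128 * G ≤ A)
    (hG0 : 0 ≤ G) (hXeq : X = n * Lam / A) (hLam1 : 1 ≤ Lam) (hSlow : Lam / 2 ≤ s)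
    (hN : n / 2 ≤ N) (hBlt : B < X + 1) (hmain : 7 * s * N ≤ 64 * G * (B + 1))
    (hn : 128 * G + 4 ≤ n) : False := by
  have hleft : 7 * (Lam / 2) * (n / 2) ≤ 7 * s * N := by
    have h3 : 7 * (Lam / 2) ≤ 7 * s := by linarith
    have hs : 0 ≤ 7 * s := by linarith
    exact mul_le_mul h3 hN (by positivity) hs
  have hright : 64 * G * (B + 1) ≤ 64 * G * (X + 2) :=
    mul_le_mul_of_nonneg_left (by linarith) (by positivity)
  have hnL : 0 ≤ n * Lam := by positivity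
  have hXG : 64 * G * X ≤ n * Lam / 2 := by
    have h3 : 64 * G * X = (128 * G / A) * (n * Lam / 2) := by
      rw [hXeq]
      field_simp
      ring
    rw [h3]
    have h4 : 128 * G / A ≤ 1 := by
      rw [div_le_one hApos]; exact hGA
    exact mul_le_of_le_one_left (by positivity) h4
  have e1 : 7 * (Lam / 2) * (n / 2) = 7 / 4 * (n * Lam) := by ring
  have e2 : 64 * G * (X + 2) = 64 * G * X + 128 * G := by ring
  have hnL1 : n ≤ n * Lam := le_mul_of_one_le_right hnpos.le hLam1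
  linarith

/-- Main theorem on the delayed on-line multiplication time. -/
theorem main_delay (k : ℕ) (hk : 1 ≤ k) (Q Γ : Type) [Fintype Q] [Fintype Γ] :
    ∃ c : ℝ, 0 < c ∧ ∃ N₀ : ℕ, ∀ n, N₀ ≤ n → ∀ d : ℕ, ∃ y : ℕ, y < 2 ^ n ∧ y % 2 = 1 ∧
      ∀ (M : Machine k Q Γ) (init : Fin k → ℤ → Γ), OnlineMul M init y n d →
        ∃ x, x < 2 ^ n ∧ ∀ t : ℕ, (t : ℝ) < c * n * Real.logb 2 (n / (d + Real.logb 2 n)) →
          (run M init (stream x y) t).out.length < n := by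
  classical
  obtain ⟨g, hg1, hg⟩ : ∃ g, 1 ≤ g ∧ Fintype.card Γ ≤ 2 ^ g :=
    ⟨Fintype.card Γ + 1, by omega, (Nat.lt_two_pow_self.le).trans
      (Nat.pow_le_pow_right (by norm_num) (by omega))⟩
  obtain ⟨q₀, hq⟩ : ∃ q₀, Fintype.card Q ≤ 2 ^ q₀ := ⟨_, Nat.lt_two_pow_self.le⟩
  set G : ℕ := g * k ^ 2 with hG
  set C₃ : ℕ := 2 * q₀ + 48 * k + 30 with hC₃
  have hGpos : 1 ≤ G := by
    have : 1 ≤ k ^ 2 := Nat.one_le_pow _ _ hk
    calc 1 = 1 * 1 := rfl
      _ ≤ g * k ^ 2 := Nat.mul_le_mul hg1 this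
  set A : ℝ := 128 * (G : ℝ) + 2 * ((C₃ : ℝ) + 2) + 1 with hA
  have hApos : 0 < A := by rw [hA]; positivity
  refine ⟨1 / A, by positivity, 128 * G + 4, ?_⟩
  intro n hn d
  have hn4 : 4 ≤ n := by omega
  have hnR : (128 * (G : ℝ) + 4) ≤ n := by exact_mod_cast hn
  set X : ℝ := 1 / A * n * Real.logb 2 (n / (d + Real.logb 2 n)) with hX
  by_cases hXn : X ≤ n
  · refine ⟨1, Nat.one_lt_two_pow (by omega), by norm_num, fun M init _ => ⟨0, by positivity, ?_⟩⟩
    intro t ht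
    have h1 : (t : ℝ) < n := lt_of_lt_of_le ht hXn
    have h2 : t < n := by exact_mod_cast h1
    exact lt_of_le_of_lt (out_len_le M init _ t) h2
  -- the main case
  have hXn' : (n : ℝ) < X := not_le.mp hXn
  set K := Nat.log 2 (n - 1) with hKdef
  have hK1 : 2 ^ K < n := by
    have : 2 ^ K ≤ n - 1 := Nat.pow_log_le_self 2 (x := n - 1) (by omega)
    omega
  have hK2 : n ≤ 2 ^ (K + 1) := by
    have : n - 1 < 2 ^ (K + 1) := Nat.lt_pow_succ_log_self (by norm_num) (n - 1)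
    omega
  obtain ⟨hlg1, hlg2, hlg3, hlg4⟩ := lg_facts (n := n) (K := K) (by omega) hK1 hK2
  have hnpos : (0 : ℝ) < n := by exact_mod_cast (by omega : 0 < n)
  set D : ℝ := (d : ℝ) + Real.logb 2 n with hD
  have hd0 : (0 : ℝ) ≤ d := by positivity
  have hD1 : 1 ≤ D := by rw [hD]; linarith
  have hDpos : 0 < D := by linarith
  have h2 : (1 : ℝ) < 2 := by norm_num
  set Lam : ℝ := Real.logb 2 (n / D) with hLam
  have hLamEq : Lam = Real.logb 2 n - Real.logb 2 D := by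
    rw [hLam, Real.logb_div hnpos.ne' hDpos.ne']
  have hlgD : 0 ≤ Real.logb 2 D := Real.logb_nonneg h2 hD1
  have hLamle : Lam ≤ Real.logb 2 n := by rw [hLamEq]; linarith
  have hXeq : X = n * Lam / A := by rw [hX]; ring
  have hLamgt : A < Lam := by
    rw [hXeq, lt_div_iff₀ hApos] at hXn'
    have : n * A < n * Lam := by linarith
    exact lt_of_mul_lt_mul_left this hnpos.le
  have hA1 : 1 ≤ A := by
    rw [hA]
    have h0 : (0 : ℝ) ≤ G := by positivity
    have h3 : (0 : ℝ) ≤ C₃ := by positivity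
    linarith
  have hXpos : 0 ≤ X := by linarith
  have hXle : X ≤ n * n := by
    rw [hXeq, div_le_iff₀ hApos]
    have h3 : n * Lam ≤ n * n := mul_le_mul_of_nonneg_left (hLamle.trans hlg4) hnpos.le
    have h4 : n * n * 1 ≤ n * n * A := mul_le_mul_of_nonneg_left hA1 (by positivity)
    linarith
  set B := ⌈X⌉₊ with hB
  have hBlt : (B : ℝ) < X + 1 := Nat.ceil_lt_add_one hXpos
  set β := 2 * K + 3 with hβdef
  have hβ : B + 1 ≤ 2 ^ β := by
    have h3 : B ≤ n * n + 1 := by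
      have : (B : ℝ) < ((n * n + 1 + 1 : ℕ) : ℝ) := by
        push_cast; linarith
      have h5 : B < n * n + 1 + 1 := by exact_mod_cast this
      omega
    have h4 : n * n ≤ 2 ^ (K + 1) * 2 ^ (K + 1) := Nat.mul_le_mul hK2 hK2
    have h5 : (2 : ℕ) ^ β = 2 * (2 ^ (K + 1) * 2 ^ (K + 1)) := by
      rw [hβdef, ← pow_add, ← pow_succ']; congr 1; omega
    have h6 : 2 ≤ 2 ^ (K + 1) := by
      rw [pow_succ]; have : 1 ≤ 2 ^ K := Nat.one_le_two_pow; omega
    have h7 : 2 * 2 ≤ 2 ^ (K + 1) * 2 ^ (K + 1) := Nat.mul_le_mul h6 h6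
    omega
  set S := (range K).filter (fun l => levelMin k q₀ β d ≤ 2 ^ l) with hS
  have hSprop : ∀ l ∈ S, l < K ∧ levelMin k q₀ β d ≤ 2 ^ l := by
    intro l hl
    obtain ⟨h3, h4⟩ := Finset.mem_filter.mp hl
    exact ⟨Finset.mem_range.mp h3, h4⟩
  obtain ⟨y₁, hy₁, hgood⟩ := exists_good_multiplier (d := d) (n := n) S (by
    intro l hl
    obtain ⟨h3, h4⟩ := hSprop l hl
    have h5 : 2 * 2 ^ l ≤ 2 ^ K := by
      rw [← pow_succ']; exact Nat.pow_le_pow_right (by norm_num) h3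
    simp only [levelMin] at h4
    omega) hn4
  have hypow : 2 ^ n = 2 * 2 ^ (n - 1) := by
    have : n = (n - 1) + 1 := by omega
    conv_lhs => rw [this, pow_succ]
    ring
  refine ⟨2 * y₁ + 1, by omega, by omega, fun M init hM => ?_⟩
  by_contra hcon
  have hfin : ∀ x, x < 2 ^ n → ∃ t, t ≤ B ∧ n ≤ (run M init (stream x (2 * y₁ + 1)) t).out.length := by
    intro x hx
    by_contra hx2
    apply hcon
    refine ⟨x, hx, ?_⟩
    intro t ht
    by_contra hlen
    apply hx2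
    refine ⟨t, ?_, not_lt.mp hlen⟩
    have h3 : (t : ℝ) < B := lt_of_lt_of_le ht (Nat.le_ceil X)
    have h4 : t < B := by exact_mod_cast h3
    exact h4.le
  have hmain := core_bound (k := k) (Q := Q) (Γ := Γ) (g := g) (q₀ := q₀) (β := β) (K := K) (n := n)
    (d := d) (B := B) (y₁ := y₁) hk hg hg1 hq hβ hK1 (by omega) S hSprop hgood M init hM hfin
  -- the number of levels
  have hScard := card_levels_ge (k := k) (q₀ := q₀) (K := K) (d := d) n hlg2 hlg3 (by rw [← hD]; exact hD1)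
  rw [← hD, ← hC₃, ← hLamEq] at hScard
  -- real arithmetic
  have hmainR : 7 * (S.card : ℝ) * (2 : ℝ) ^ K ≤ 64 * (G : ℝ) * ((B : ℝ) + 1) := by
    have : ((7 * S.card * 2 ^ K : ℕ) : ℝ) ≤ ((64 * g * k ^ 2 * (B + 1) : ℕ) : ℝ) := by
      exact_mod_cast hmain
    rw [hG]
    push_cast at this ⊢
    linarith
  have hN : (n : ℝ) / 2 ≤ (2 : ℝ) ^ K := by
    have : (n : ℝ) ≤ (2 : ℝ) ^ (K + 1) := by exact_mod_cast hK2
    rw [pow_succ] at this
    linarith
  have hG0 : (0 : ℝ) ≤ G := by positivity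
  have hGA : 128 * (G : ℝ) ≤ A := by
    rw [hA]
    have h3 : (0 : ℝ) ≤ C₃ := by positivity
    linarith
  have hLam1 : 1 ≤ Lam := by linarith
  have hSlow : Lam / 2 ≤ (S.card : ℝ) := by
    have h3 : 2 * ((C₃ : ℝ) + 2) ≤ A := by
      rw [hA]; linarith
    linarith
  exact final_arith hApos hnpos hGA hG0 hXeq hLam1 hSlow hN hBlt hmainR hnR

end Vale.Agent.P338
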