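import Vale.Agent.Lib.P338.Blocks

namespace Vale.Agent.P338

variable {k : ℕ} {Q Γ : Type}

section
variable {M : Machine k Q Γ} {init : Fin k → ℤ → Γ} {inp inp' : ℕ → Bool × Bool}

/-- Lockstep simulation after the divergence. -/
lemma lockstep_aux {τ τ' b : ℕ} {E : Fin k → Set ℤ}
    (hag : ∀ i, b ≤ i → inp i = inp' i)
    (h0st : (run M init inp τ).st = (run M init inp' τ').st)
    (h0head : (run M init inp τ).head = (run M init inp' τ').head)
    (h0ptr : (run M init inp τ).ptr = (run M init inp' τ').ptr)
    (h0b : b ≤ (run M init inp τ).ptr)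
    (h0tape : ∀ h z, z ∉ E h → (run M init inp τ).tape h z = (run M init inp' τ').tape h z)
    (S : ℕ) (hS : ∀ s, s < S → ∀ h, (run M init inp (τ + s)).head h ∉ E h) :
    ∀ s, s ≤ S →
      (run M init inp (τ + s)).st = (run M init inp' (τ' + s)).st ∧
      (run M init inp (τ + s)).head = (run M init inp' (τ' + s)).head ∧
      (run M init inp (τ + s)).ptr = (run M init inp' (τ' + s)).ptr ∧
      (∀ h z, z ∉ E h → (run M init inp (τ + s)).tape h z = (run M init inp' (τ' + s)).tape h z) ∧
      ∃ e : List Bool, (run M init inp (τ + s)).out = (run M init inp τ).out ++ e ∧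
        (run M init inp' (τ' + s)).out = (run M init inp' τ').out ++ e := by
  intro s
  induction s with
  | zero =>
    intro _
    exact ⟨h0st, h0head, h0ptr, h0tape, [], by simp, by simp⟩
  | succ s ih =>
    intro hs
    obtain ⟨i1, i2, i3, i4, e, i5, i6⟩ := ih (by omega)
    have hb : b ≤ (run M init inp (τ + s)).ptr :=
      h0b.trans (ptr_mono M init inp (Nat.le_add_right τ s))
    have hletter : inp (run M init inp (τ + s)).ptr = inp' (run M init inp' (τ' + s)).ptr := by
      rw [← i3]; exact hag _ hb
    have hscan : (fun h => (run M init inp (τ + s)).tape h ((run M init inp (τ + s)).head h)) =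
        (fun h => (run M init inp' (τ' + s)).tape h ((run M init inp' (τ' + s)).head h)) := by
      funext h
      rw [← i2]
      exact i4 h _ (hS s (by omega) h)
    have hact : M.δ (run M init inp (τ + s)).st (inp (run M init inp (τ + s)).ptr)
        (fun h => (run M init inp (τ + s)).tape h ((run M init inp (τ + s)).head h)) =
        M.δ (run M init inp' (τ' + s)).st (inp' (run M init inp' (τ' + s)).ptr)
        (fun h => (run M init inp' (τ' + s)).tape h ((run M init inp' (τ' + s)).head h)) := by
      rw [i1, hletter, hscan]
    have e1 : τ + (s + 1) = (τ + s) + 1 := rfl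
    have e2 : τ' + (s + 1) = (τ' + s) + 1 := rfl
    rw [e1, e2, run_succ, run_succ]
    simp only [step]
    rw [hact]
    refine ⟨rfl, ?_, ?_, ?_, ?_⟩
    · funext h
      rw [i2]
    · rw [i3]
    · intro h z hz
      by_cases hz2 : z = (run M init inp' (τ' + s)).head h
      · rw [hz2, ← congrFun i2 h]
        simp
      · have hz3 : z ≠ (run M init inp (τ + s)).head h := by
          rw [congrFun i2 h]; exact hz2
        rw [Function.update_of_ne hz3, Function.update_of_ne hz2]
        exact i4 h z hz
    · exact ⟨e ++ (M.δ (run M init inp' (τ' + s)).st (inp' (run M init inp' (τ' + s)).ptr)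
        (fun h => (run M init inp' (τ' + s)).tape h
          ((run M init inp' (τ' + s)).head h))).emit.toList, by rw [i5, List.append_assoc],
        by rw [i6, List.append_assoc]⟩

/-- Common prefix of two runs whose streams agree below `a`. -/
lemma run_eq_of_le_tau {a : ℕ} (hag : ∀ i, i < a → inp i = inp' i) {t : ℕ}
    (ht : t ≤ tau M init inp a) : run M init inp t = run M init inp' t :=
  run_congr M init t fun _ hs => hag _ (lt_tau (lt_of_lt_of_le hs ht))

lemma tau_eq_of_agree {a : ℕ} (hag : ∀ i, i < a → inp i = inp' i)
    (hr : ∃ t, a ≤ (run M init inp t).ptr) :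
    tau M init inp' a = tau M init inp a := by
  have h1 : run M init inp (tau M init inp a) = run M init inp' (tau M init inp a) :=
    run_eq_of_le_tau hag le_rfl
  apply le_antisymm
  · apply tau_le
    rw [← h1]
    exact tau_spec hr
  · by_contra hcon
    have hcon := not_le.mp hcon
    have h2 := run_eq_of_le_tau (M := M) (init := init) hag hcon.le
    have h3 : a ≤ (run M init inp' (tau M init inp' a)).ptr := by
      apply tau_spec
      refine ⟨tau M init inp a, ?_⟩
      rw [← h1]
      exact tau_spec hr
    rw [← h2] at h3
    exact absurd (lt_tau hcon) (not_lt.mpr h3)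

/-- Cells not visited in the block `[a, b)` keep their content through the block. -/
lemma tape_tau_of_not_visited {a b B : ℕ} (hab : a ≤ b) (hreach : b ≤ (run M init inp B).ptr)
    {h : Fin k} {z : ℤ} (hz : z ∉ visited M init inp h a b B) :
    (run M init inp (tau M init inp b)).tape h z = (run M init inp (tau M init inp a)).tape h z := by
  have hb : ∃ t, b ≤ (run M init inp t).ptr := ⟨B, hreach⟩
  have hle : tau M init inp a ≤ tau M init inp b := tau_mono hab hb
  have hB : tau M init inp b ≤ B := tau_le hreach
  obtain ⟨u, hu⟩ := Nat.exists_eq_add_of_le hle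
  rw [hu]
  apply tape_of_not_visited
  intro t h1 h2 he
  apply hz
  rw [mem_visited]
  have ha : ∃ t, a ≤ (run M init inp t).ptr := ⟨B, (hab.trans hreach)⟩
  refine ⟨t, by omega, (tau_spec ha).trans (ptr_mono M init inp h1), lt_tau (by omega), he.symm⟩

lemma visited_nonempty {lo hi B : ℕ} {h : Fin k} (hlo : lo < hi)
    (hreach : hi ≤ (run M init inp B).ptr) : (visited M init inp h lo hi B).Nonempty := by
  have ha : ∃ t, lo ≤ (run M init inp t).ptr := ⟨B, by omega⟩
  refine ⟨(run M init inp (tau M init inp lo)).head h, mem_visited.mpr ⟨tau M init inp lo, ?_, ?_, ?_, rfl⟩⟩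
  · exact tau_le (by omega)
  · exact tau_spec ha
  · rw [ptr_tau ha]; exact hlo

end

/-- The data transferred from the block `[a, b)` to the block `[b, c)`. -/
noncomputable def sig (M : Machine k Q Γ) (init : Fin k → ℤ → Γ) (inp : ℕ → Bool × Bool)
    (w a b c B : ℕ) :
    Q × (Fin k → ℤ) × (Fin k → ℤ) × (Fin k → ℤ) × (Fin k → ℤ) × ℕ × (Fin k → Fin w → Γ) :=
  ((run M init inp (tau M init inp b)).st,
   (run M init inp (tau M init inp b)).head,
   (fun h => loOf (visited M init inp h a b B)),
   (fun h => hiOf (visited M init inp h a b B)),
   (fun h => max (loOf (visited M init inp h a b B)) (loOf (visited M init inp h b c B))),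
   (run M init inp (tau M init inp b)).out.length,
   (fun h i => (run M init inp (tau M init inp b)).tape h
      (max (loOf (visited M init inp h a b B)) (loOf (visited M init inp h b c B)) + (i : ℕ))))

section
variable {M : Machine k Q Γ} {init : Fin k → ℤ → Γ} {inp inp' : ℕ → Bool × Bool}

/-- Equal signatures and agreeing outer letters give the same output on the block `[b, c)`. -/
theorem same_after_block {w a b c B : ℕ} (hab : a < b) (hbc : b < c)
    (hag1 : ∀ i, i < a → inp i = inp' i) (hag2 : ∀ i, b ≤ i → inp i = inp' i)
    (hr : c ≤ (run M init inp B).ptr) (hr' : c ≤ (run M init inp' B).ptr)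
    (hsig : sig M init inp w a b c B = sig M init inp' w a b c B)
    (hw : omega M init inp a b c B ≤ w) :
    ∃ s e, tau M init inp c = tau M init inp b + s ∧
      (run M init inp (tau M init inp b + s)).out = (run M init inp (tau M init inp b)).out ++ e ∧
      (run M init inp' (tau M init inp' b + s)).out =
        (run M init inp' (tau M init inp' b)).out ++ e ∧
      (run M init inp' (tau M init inp' b + s)).ptr = c ∧
      (run M init inp (tau M init inp b)).out.length =
        (run M init inp' (tau M init inp' b)).out.length := by
  classical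
  simp only [sig, Prod.mk.injEq] at hsig
  obtain ⟨s1, s2, s3, s4, s5, s6, s7⟩ := hsig
  have rb : ∃ t, b ≤ (run M init inp t).ptr := ⟨B, by omega⟩
  have rb' : ∃ t, b ≤ (run M init inp' t).ptr := ⟨B, by omega⟩
  have ra : ∃ t, a ≤ (run M init inp t).ptr := ⟨B, by omega⟩
  have rc : ∃ t, c ≤ (run M init inp t).ptr := ⟨B, hr⟩
  -- the first visited sets coincide
  have hV : ∀ h, visited M init inp h a b B = visited M init inp' h a b B := by
    intro h
    rw [visited_eq_Icc (visited_nonempty hab (by omega : b ≤ (run M init inp B).ptr)),
      visited_eq_Icc (M := M) (init := init) (inp := inp') (h := h) (lo := a) (hi := b) (B := B)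
        (visited_nonempty hab (by omega : b ≤ (run M init inp' B).ptr)),
      congrFun s3 h, congrFun s4 h]
  -- prefix
  have hτa : tau M init inp' a = tau M init inp a := tau_eq_of_agree hag1 ra
  have hpre : run M init inp (tau M init inp a) = run M init inp' (tau M init inp' a) := by
    rw [hτa]; exact run_eq_of_le_tau hag1 le_rfl
  -- exceptional cells
  let E : Fin k → Set ℤ := fun h =>
    {z | z ∈ visited M init inp h a b B ∧ z ∉ visited M init inp h b c B}
  have h0tape : ∀ h z, z ∉ E h →
      (run M init inp (tau M init inp b)).tape h z =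
        (run M init inp' (tau M init inp' b)).tape h z := by
    intro h z hz
    by_cases hzV : z ∈ visited M init inp h a b B
    · -- in the overlap
      have hzW : z ∈ visited M init inp h b c B := by
        by_contra hcon
        exact hz ⟨hzV, hcon⟩
      set ol := max (loOf (visited M init inp h a b B)) (loOf (visited M init inp h b c B)) with hol
      have h1 : ol ≤ z := max_le (loOf_le hzV) (loOf_le hzW)
      -- index of `z` inside the overlap
      have hcard : (z - ol).toNat < w := by
        have hIcc : Finset.Icc ol z ⊆ overlap M init inp h a b c B := by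
          intro y hy
          rw [Finset.mem_Icc] at hy
          have hy1 : loOf (visited M init inp h a b B) ≤ y := (le_max_left _ _).trans hy.1
          have hy2 : loOf (visited M init inp h b c B) ≤ y := (le_max_right _ _).trans hy.1
          have hy3 : y ≤ hiOf (visited M init inp h a b B) := hy.2.trans (le_hiOf hzV)
          have hy4 : y ≤ hiOf (visited M init inp h b c B) := hy.2.trans (le_hiOf hzW)
          refine Finset.mem_inter.mpr ⟨?_, ?_⟩
          · rw [visited_eq_Icc (visited_nonempty hab (by omega : b ≤ (run M init inp B).ptr))]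
            exact Finset.mem_Icc.mpr ⟨hy1, hy3⟩
          · rw [visited_eq_Icc (visited_nonempty hbc hr)]
            exact Finset.mem_Icc.mpr ⟨hy2, hy4⟩
        have h2 := Finset.card_le_card hIcc
        rw [Int.card_Icc] at h2
        have h3 : (overlap M init inp h a b c B).card ≤ omega M init inp a b c B :=
          Finset.single_le_sum (f := fun h => (overlap M init inp h a b c B).card)
            (fun _ _ => Nat.zero_le _) (Finset.mem_univ h)
        omega
      have h4 := congrFun (congrFun s7 h) ⟨(z - ol).toNat, hcard⟩
      simp only at h4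
      have h5 : ol + (((z - ol).toNat : ℕ) : ℤ) = z := by
        rw [Int.toNat_of_nonneg (by omega)]; omega
      rw [← hol, h5] at h4
      rw [← congrFun s5 h, ← hol, h5] at h4
      exact h4
    · -- outside the first block
      have hzV' : z ∉ visited M init inp' h a b B := by rw [← hV h]; exact hzV
      rw [tape_tau_of_not_visited hab.le (by omega : b ≤ (run M init inp B).ptr) hzV,
        tape_tau_of_not_visited hab.le (by omega : b ≤ (run M init inp' B).ptr) hzV', hpre]
  -- duration of the second block
  have hle : tau M init inp b ≤ tau M init inp c := tau_mono hbc.le rc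
  obtain ⟨S, hS⟩ := Nat.exists_eq_add_of_le hle
  have hcB : tau M init inp c ≤ B := tau_le hr
  have hSE : ∀ s, s < S → ∀ h, (run M init inp (tau M init inp b + s)).head h ∉ E h := by
    intro s hs h hmem
    apply hmem.2
    rw [mem_visited]
    refine ⟨tau M init inp b + s, by omega, ?_, lt_tau (by omega), rfl⟩
    exact (tau_spec rb).trans (ptr_mono M init inp (Nat.le_add_right _ _))
  have hptrτ : (run M init inp (tau M init inp b)).ptr = (run M init inp' (tau M init inp' b)).ptr := by
    rw [ptr_tau rb, ptr_tau rb']
  have hmain := lockstep_aux (M := M) (init := init) (τ := tau M init inp b)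
    (τ' := tau M init inp' b) (b := b) (E := E) hag2 s1 s2 hptrτ (tau_spec rb) h0tape S hSE S le_rfl
  obtain ⟨-, -, h3, -, e, h5, h6⟩ := hmain
  refine ⟨S, e, hS, h5, h6, ?_, s6⟩
  rw [← h3, ← hS, ptr_tau rc]

end

end Vale.Agent.P338
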