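import Vale.Agent.Lib.P338.Defs

namespace Vale.Agent.P338

variable {k : ℕ} {Q Γ : Type}

section Basic
variable (M : Machine k Q Γ) (init : Fin k → ℤ → Γ) (inp : ℕ → Bool × Bool)

lemma run_succ (t : ℕ) : run M init inp (t + 1) = step M inp (run M init inp t) := rfl

lemma ptr_le_succ (t : ℕ) : (run M init inp t).ptr ≤ (run M init inp (t + 1)).ptr := by
  simp [run_succ, step]

lemma ptr_succ_le (t : ℕ) : (run M init inp (t + 1)).ptr ≤ (run M init inp t).ptr + 1 := by
  simp only [run_succ, step]
  split_ifs <;> omega

lemma ptr_mono : Monotone (fun t => (run M init inp t).ptr) :=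
  monotone_nat_of_le_succ (ptr_le_succ M init inp)

lemma ptr_zero : (run M init inp 0).ptr = 0 := rfl

lemma head_zero (h : Fin k) : (run M init inp 0).head h = 0 := rfl

lemma head_step_abs (t : ℕ) (h : Fin k) :
    |(run M init inp (t + 1)).head h - (run M init inp t).head h| ≤ 1 := by
  simp only [run_succ, step]
  generalize (M.δ (run M init inp t).st (inp (run M init inp t).ptr)
    (fun h => (run M init inp t).tape h ((run M init inp t).head h))).move h = s
  cases s <;> simp

lemma head_abs_le (t : ℕ) (h : Fin k) : |(run M init inp t).head h| ≤ t := by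
  induction t with
  | zero => simp [head_zero]
  | succ t ih =>
    have h1 := head_step_abs M init inp t h
    rw [abs_le] at h1 ih ⊢
    push_cast
    constructor <;> linarith [h1.1, h1.2, ih.1, ih.2]

lemma out_len_succ_le (t : ℕ) :
    (run M init inp (t + 1)).out.length ≤ (run M init inp t).out.length + 1 := by
  simp only [run_succ, step, List.length_append]
  generalize (M.δ (run M init inp t).st (inp (run M init inp t).ptr)
    (fun h => (run M init inp t).tape h ((run M init inp t).head h))).emit = e
  cases e <;> simp

lemma out_len_le (t : ℕ) : (run M init inp t).out.length ≤ t := by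
  induction t with
  | zero => simp [run, initCfg]
  | succ t ih => have := out_len_succ_le M init inp t; omega

lemma tape_succ_of_ne (t : ℕ) (h : Fin k) (z : ℤ) (hz : z ≠ (run M init inp t).head h) :
    (run M init inp (t + 1)).tape h z = (run M init inp t).tape h z := by
  simp only [run_succ, step]
  rw [Function.update_of_ne hz]

/-- A cell that is not visited in `[s, s + u)` keeps its content. -/
lemma tape_of_not_visited (s u : ℕ) (h : Fin k) (z : ℤ)
    (hz : ∀ t, s ≤ t → t < s + u → z ≠ (run M init inp t).head h) :
    (run M init inp (s + u)).tape h z = (run M init inp s).tape h z := by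
  induction u with
  | zero => rfl
  | succ u ih =>
    rw [← add_assoc, tape_succ_of_ne M init inp _ h z (hz _ (by omega) (by omega))]
    exact ih (fun t h1 h2 => hz t h1 (by omega))

/-- Discrete intermediate value property of head positions. -/
lemma head_ivt (s t : ℕ) (hst : s ≤ t) (h : Fin k) (z : ℤ)
    (hz : min ((run M init inp s).head h) ((run M init inp t).head h) ≤ z ∧
      z ≤ max ((run M init inp s).head h) ((run M init inp t).head h)) :
    ∃ r, s ≤ r ∧ r ≤ t ∧ (run M init inp r).head h = z := by
  induction t, hst using Nat.le_induction with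
  | base =>
    refine ⟨s, le_rfl, le_rfl, ?_⟩
    simp at hz
    omega
  | succ t hst ih =>
    have h1 := head_step_abs M init inp t h
    rw [abs_le] at h1
    by_cases hzt : (run M init inp (t + 1)).head h = z
    · exact ⟨t + 1, by omega, le_rfl, hzt⟩
    · have : min ((run M init inp s).head h) ((run M init inp t).head h) ≤ z ∧
          z ≤ max ((run M init inp s).head h) ((run M init inp t).head h) := by
        rcases hz with ⟨hz1, hz2⟩
        simp only [min_le_iff, le_max_iff] at hz1 hz2 ⊢
        omega
      obtain ⟨r, h2, h3, h4⟩ := ih this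
      exact ⟨r, h2, by omega, h4⟩

/-- First time the pointer is at least `i`. -/
noncomputable def tau (i : ℕ) : ℕ := sInf {t | i ≤ (run M init inp t).ptr}

variable {M init inp}

lemma tau_spec {i : ℕ} (hi : ∃ t, i ≤ (run M init inp t).ptr) :
    i ≤ (run M init inp (tau M init inp i)).ptr :=
  Nat.sInf_mem (s := {t | i ≤ (run M init inp t).ptr}) hi

lemma tau_le {i t : ℕ} (hi : i ≤ (run M init inp t).ptr) : tau M init inp i ≤ t :=
  Nat.sInf_le hi

lemma lt_tau {i t : ℕ} (ht : t < tau M init inp i) : (run M init inp t).ptr < i := by
  by_contra h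
  exact absurd (tau_le (not_lt.mp h)) (not_le.mpr ht)

lemma ptr_tau {i : ℕ} (hi : ∃ t, i ≤ (run M init inp t).ptr) :
    (run M init inp (tau M init inp i)).ptr = i := by
  apply le_antisymm _ (tau_spec hi)
  rcases Nat.eq_zero_or_pos (tau M init inp i) with h0 | h0
  · rw [h0, ptr_zero]; exact Nat.zero_le _
  · have h1 : (run M init inp (tau M init inp i - 1)).ptr < i := lt_tau (by omega)
    have h2 := ptr_succ_le M init inp (tau M init inp i - 1)
    rw [Nat.sub_add_cancel h0] at h2
    omega

lemma tau_le_iff {i t : ℕ} (hi : ∃ t, i ≤ (run M init inp t).ptr) :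
    tau M init inp i ≤ t ↔ i ≤ (run M init inp t).ptr :=
  ⟨fun h => (tau_spec hi).trans (ptr_mono M init inp h), tau_le⟩

lemma tau_mono {i i' : ℕ} (hii : i ≤ i') (hi : ∃ t, i' ≤ (run M init inp t).ptr) :
    tau M init inp i ≤ tau M init inp i' :=
  tau_le (hii.trans (tau_spec hi))

end Basic

/-- Two streams agreeing at all letters seen so far give the same run. -/
lemma run_congr (M : Machine k Q Γ) (init : Fin k → ℤ → Γ) {inp inp' : ℕ → Bool × Bool} (t : ℕ)
    (hag : ∀ s, s < t → inp (run M init inp s).ptr = inp' (run M init inp s).ptr) :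
    run M init inp t = run M init inp' t := by
  induction t with
  | zero => rfl
  | succ t ih =>
    have h1 := ih (fun s hs => hag s (by omega))
    have h2 := hag t (by omega)
    rw [run_succ, run_succ, ← h1]
    simp only [step]
    rw [h2]

end Vale.Agent.P338
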